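import Vale.Agent.P283B.BR.Glob
import Vale.Agent.P283B.Tool.Mmp

/-!
# P283B, block BR: `BIGU`, `LNEG`, `GLOB` without hypotheses
-/

open Vale.Agent.P287D

namespace Vale.Agent.P283B.Br

theorem rw : Rw := ⟨Api.ffs, Api.mod, res', Api.int, Api.vol, Api.neg⟩

theorem glob : GLOB :=
  glob_of rw (fun _ _ _ _ hK _ _ => Tl.minq hK) Api.rel ftm0 ftm1

end Vale.Agent.P283B.Br
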