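import Vale.Agent.P283B.BR.Sm
import Vale.Agent.P283B.BR.Zar
import Vale.Agent.P283B.BR.Glx

/-!
# P283B, block BR: the bridge
-/

open AlgebraicGeometry CategoryTheory

namespace Vale.Agent.P283B.Br

open Lit P289

theorem bridge {c : ∀ Z : QV, Pt Z.X → Prop} {C : Bs} (hL : Lcl C) (hC : Cmp c C)
    (h : ∀ n, Q1F C n) : Q1For c :=
  main (szar sbas) (smod sbas) hC fun n => glob C hL n (h n)

theorem bridge_all (h : ∀ n, Q1F (fun _ _ _ _ _ => True) n) : Q1 :=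
  bridge (fun _ _ _ _ _ _ _ _ => trivial) (fun _ _ _ _ _ _ _ _ _ _ _ _ _ => trivial) h

theorem bridge_smo (h : ∀ n, Q1F Smo n) :
    Q1For fun Z z => ∃ V : Z.X.Opens, z ∈ V ∧ Smooth (V.ι ≫ Z.str) :=
  bridge lcl_smo cmp_smo h

end Vale.Agent.P283B.Br
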