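import Vale.Agent.P283B.BR.MlDf
import Vale.Agent.P283B.BR.All
import Mathlib.RingTheory.ZariskisMainTheorem
import Mathlib.RingTheory.LocalRing.Length

/-!
# P283B, block BR: points of bounded multiplicity of the base
-/

set_option linter.all false

open Set Function IsLocalRing

noncomputable section

namespace Vale.Agent.P283B.Br

/-- the number of sheets through a point -/
theorem cnt_of {R A Ω Q : Type} [CommRing R] [CommRing A] [Algebra R A] [Module.Finite R A]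
    [Algebra ℂ A] [Field Ω] [Algebra ℂ Ω] [AddCommGroup Q] [Module ℂ Q] [Module.Finite ℂ Q]
    (V : ValuationSubring Ω) (T : Finset (A →ₐ[ℂ] Ω)) (ρ : R → Ω) (π : A →ₗ[ℂ] Q) (I : Set R)
    (h1 : ∀ ξ ∈ T, (∀ a, ξ a ∈ V) ∧ ∀ r, ξ (algebraMap R A r) = ρ r)
    (h2 : ∀ r ∈ I, ρ r ∈ V.nonunits)
    (h3 : ∀ a, π a = 0 → ∃ b, (∀ ξ ∈ T, ξ b ∉ V.nonunits) ∧
      b * a ∈ Ideal.span (algebraMap R A '' I)) : T.card ≤ Module.finrank ℂ Q := by
  classical
  rcases T.eq_empty_or_nonempty with rfl | ⟨ξ₀, h0⟩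
  · simp
  let Φ : A →+* (T → V) :=
    Pi.ringHom fun ξ => (ξ.1 : A →+* Ω).codRestrict V fun a => (h1 ξ.1 ξ.2).1 a
  have e1 : ∀ a ξ, (Φ a ξ : Ω) = ξ.1 a := fun _ _ => rfl
  have e2 : ∀ r a, Φ (r • a) = Φ (algebraMap R A r) ⟨ξ₀, h0⟩ • Φ a := fun r a => by
    ext ξ
    simp [e1, Algebra.smul_def, (h1 _ h0).2, (h1 _ ξ.2).2]
  have e3 : ∀ (c : ℂ) a, Φ (c • a) = Φ (algebraMap ℂ A c) ⟨ξ₀, h0⟩ • Φ a := fun r a => by
    ext ξ
    simp [e1, Algebra.smul_def]
  let M : Subalgebra V (T → V) := Algebra.adjoin V (range Φ)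
  have hM : M.toSubmodule = Submodule.span V (range Φ) := by
    rw [Algebra.adjoin_eq_span, ← MonoidHom.coe_mrange Φ, Submonoid.closure_eq]
  have mem : ∀ a, Φ a ∈ M := fun a => Algebra.subset_adjoin ⟨a, rfl⟩
  have fg : M.toSubmodule.FG := by
    obtain ⟨s, hs⟩ := Module.Finite.fg_top (R := R) (M := A)
    refine ⟨s.image Φ, le_antisymm (Submodule.span_le.2 ?_) (hM ▸ Submodule.span_le.2 ?_)⟩
    · rw [Finset.coe_image]
      rintro _ ⟨a, -, rfl⟩
      exact mem a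
    · rintro _ ⟨a, rfl⟩
      have : a ∈ Submodule.span R (s : Set A) := hs ▸ trivial
      induction this using Submodule.span_induction with
      | mem a h => exact Submodule.subset_span (by simpa using ⟨a, h, rfl⟩)
      | zero => simp
      | add a b _ _ h k => rw [map_add]; exact add_mem h k
      | smul r a _ h => rw [e2]; exact Submodule.smul_mem _ _ h
  let β := Module.finBasis ℂ (LinearMap.range π)
  choose t ht using fun i => (β i).2
  let N := Submodule.span V (range fun i => Φ (t i))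
  have key : ∀ x ∈ Ideal.span (algebraMap R A '' I), ∀ u ∈ M,
      u * Φ x ∈ maximalIdeal V • M.toSubmodule := fun x hx => by
    induction hx using Submodule.span_induction with
    | mem x h =>
      obtain ⟨r, hr, rfl⟩ := h
      intro u hu
      rw [Algebra.algebraMap_eq_smul_one, e2, map_one, mul_smul_comm, mul_one]
      refine Submodule.smul_mem_smul (ValuationSubring.coe_mem_nonunits_iff.1 ?_) hu
      rw [e1, (h1 _ h0).2]
      exact h2 r hr
    | zero => simp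
    | add a b _ _ h k => exact fun u hu => by rw [map_add, mul_add]; exact add_mem (h u hu) (k u hu)
    | smul a x _ h =>
      exact fun u hu => by rw [smul_eq_mul, map_mul, ← mul_assoc]; exact h _ (mul_mem hu (mem a))
  have le : M.toSubmodule ≤ N := by
    refine Submodule.le_of_le_smul_of_le_jacobson_bot fg (maximalIdeal_le_jacobson _) ?_
    refine hM.le.trans (Submodule.span_le.2 ?_)
    rintro _ ⟨a, rfl⟩
    let l := β.repr ⟨π a, a, rfl⟩
    obtain ⟨b, b1, b2⟩ := h3 (a - ∑ i, l i • t i) (by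
      have := congrArg Subtype.val (β.sum_repr ⟨π a, a, rfl⟩)
      simp only [Submodule.coe_sum, Submodule.coe_smul] at this
      simp only [map_sub, map_sum, map_smul, ht, l, this, sub_self])
    have : Algebra.IsIntegral M (T → V) := .tower_top V
    have u : IsUnit (⟨Φ b, mem b⟩ : M) :=
      (isUnit_map_iff (algebraMap M (T → V)) _).1 (Pi.isUnit_iff.2 fun ξ => by_contra fun k =>
        b1 ξ.1 ξ.2 (ValuationSubring.coe_mem_nonunits_iff.2 k))
    obtain ⟨v, hv⟩ := u.exists_left_inv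
    have k := key _ b2 v v.2
    rw [map_mul, ← mul_assoc, show (v : T → V) * Φ b = 1 from congrArg Subtype.val hv, one_mul,
      map_sub, map_sum] at k
    rw [← sub_add_cancel (Φ a) (∑ i, Φ (l i • t i)), add_comm]
    refine Submodule.add_mem_sup (sum_mem fun i _ => ?_) k
    rw [e3]
    exact Submodule.smul_mem _ _ (Submodule.subset_span ⟨i, rfl⟩)
  have li : LinearIndependent Ω fun (ξ : T) i => ξ.1 (t i) := by
    have l0 := (linearIndependent_monoidHom A Ω).comp (fun ξ : T => (ξ.1 : A →* Ω))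
      fun a b h => Subtype.ext (AlgHom.ext fun x => DFunLike.congr_fun h x)
    rw [Fintype.linearIndependent_iff] at l0 ⊢
    refine fun g hg => l0 g (funext fun a => ?_)
    have : ∀ w ∈ N, ∑ ξ, g ξ * w ξ = 0 := fun w hw => by
      induction hw using Submodule.span_induction with
      | mem x h => obtain ⟨i, rfl⟩ := h; simpa [e1] using congrFun hg i
      | zero => simp
      | add a b _ _ h k => simp [mul_add, Finset.sum_add_distrib, h, k, -Finset.univ_eq_attach]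
      | smul a x _ h => simp [mul_left_comm _ (a : Ω), ← Finset.mul_sum, h, -Finset.univ_eq_attach]
    simpa [e1] using this _ (le (mem a))
  simpa using li.fintype_card_le_finrank.trans (by simpa using Submodule.finrank_le _)

theorem wqf {R S O : Type} [CommRing R] [CommRing S] [Algebra R S] (p : Ideal S) [p.IsPrime]
    [CommRing O] [Algebra S O] [IsLocalization.AtPrime O p] [Algebra R O] [IsScalarTower R S O]
    (J : Ideal O) (h : J ≤ (p.under R).map (algebraMap R O)) [Module.Finite R (O ⧸ J)] :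
    Algebra.WeaklyQuasiFiniteAt R p := by
  rw [Algebra.weaklyQuasiFiniteAt_iff]
  let φ := (IsLocalization.algEquiv p.primeCompl O (Localization.AtPrime p)).restrictScalars R
  have k : J ≤ ((p.under R).map (algebraMap R (Localization.AtPrime p))).comap
      (φ.toAlgHom : O →+* Localization.AtPrime p) :=
    h.trans (Ideal.map_le_iff_le_comap.2 fun r hr => by
      simpa using Ideal.mem_map_of_mem (algebraMap R (Localization.AtPrime p)) hr)
  exact .of_surjective_algHom (S := O ⧸ J) (Ideal.quotientMapₐ _ φ.toAlgHom k)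
    (Ideal.quotientMap_surjective (H := k) φ.surjective)

open P287D in
theorem fc_of {K S O : Type} [Field K] [Algebra ℂ K] [CommRing S] [Algebra ℂ S]
    [Algebra.FiniteType ℂ S] (p : Ideal S) [p.IsMaximal] [CommRing O] [Algebra S O]
    [IsLocalization.AtPrime O p] [IsLocalRing O] {n e c : ℕ} (hK : FF K n) (ψ : S →ₐ[ℂ] K)
    (hψ : Injective ψ) (y : Fin e → O) (hy : ∀ i, y i ∈ maximalIdeal O)
    (hl : Module.length O (O ⧸ Ideal.span (range y)) ≤ c) (he : Algebra.trdeg ℂ S = e)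
    (hn : ∀ a : K, IsIntegral ψ.range a → a ∈ ψ.range) (O' : Subalgebra ℂ K) (P : Pl K)
    (hP : ∀ b, ψ b ∈ P.ring) (hP' : ∀ b ∉ p, P.ord (ψ b) = 0)
    (hO : ∀ h, h ∈ O' ↔ ∃ a b, ψ b ≠ 0 ∧ P.ord (ψ b) = 0 ∧ h = ψ a / ψ b) :
    ∃ y' : Fin e → K, Fc c O' P y' := by
  classical
  have : IsDomain S := hψ.isDomain ψ.toRingHom
  choose a b hab using fun i => IsLocalization.exists_mk'_eq p.primeCompl (y i)
  have ha : ∀ i, a i ∈ p := fun i =>
    (IsLocalization.AtPrime.mk'_mem_maximal_iff O p _ _).1 ((hab i).symm ▸ hy i)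
  have hJ : Ideal.span (range y) = (Ideal.span (range a)).map (algebraMap S O) := by
    rw [Ideal.map_span, ← range_comp]
    refine le_antisymm (Ideal.span_le.2 (range_subset_iff.2 fun i => ?_))
      (Ideal.span_le.2 (range_subset_iff.2 fun i => ?_))
    · rw [← hab, IsLocalization.mk'_eq_mul_mk'_one]
      exact Ideal.mul_mem_right _ _ (Ideal.subset_span ⟨i, rfl⟩)
    · rw [comp_apply, ← IsLocalization.mk'_spec O (a i) (b i), hab]
      exact Ideal.mul_mem_right _ _ (Ideal.subset_span ⟨i, rfl⟩)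
  rw [hJ] at hl
  let _ : Algebra ℂ O := ((algebraMap S O).comp (algebraMap ℂ S)).toAlgebra
  have : IsScalarTower ℂ S O := .of_algebraMap_eq fun _ => rfl
  let J := (Ideal.span (range a)).map (algebraMap S O)
  have res : ∀ s : S, ∃ c : ℂ, s - algebraMap ℂ S c ∈ p := fun s => by
    let _ := Ideal.Quotient.field p
    have := finite_of_finite_type_of_isJacobsonRing ℂ (S ⧸ p)
    obtain ⟨c, hc⟩ := (IsAlgClosed.algebraMap_bijective_of_isIntegral (k := ℂ) (K := S ⧸ p)).2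
      (Ideal.Quotient.mk p s)
    exact ⟨c, Ideal.Quotient.eq.1 hc.symm⟩
  have len : Module.length ℂ (O ⧸ J) ≤ c := by
    have sj : Surjective (algebraMap (ResidueField ℂ) (ResidueField O)) := fun x => by
      obtain ⟨s, rfl⟩ := (IsLocalization.AtPrime.equivQuotMaximalIdeal p O).surjective x
      obtain ⟨s, rfl⟩ := Ideal.Quotient.mk_surjective s
      obtain ⟨c, hc⟩ := res s
      rw [← (Ideal.Quotient.eq).2 hc |>.symm]
      exact ⟨residue ℂ c, rfl⟩
    rw [length_restrictScalars ℂ O, Module.length_eq_of_surjective sj,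
      Module.length_eq_one (ResidueField O), mul_one]
    exact hl
  have fin : Module.Finite ℂ (O ⧸ J) := by
    have := Module.length_ne_top_iff.1 (ne_top_of_le_ne_top (ENat.coe_ne_top c) len)
    have := (isFiniteLength_iff_isNoetherian_isArtinian.1 this).1
    infer_instance
  rw [Module.length_eq_finrank, Nat.cast_le] at len
  let B' := Algebra.adjoin ℂ (range a)
  have : Algebra.FiniteType B' S := .of_restrictScalars_finiteType ℂ B' S
  have : Algebra.WeaklyQuasiFiniteAt B' p := by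
    have : Module.Finite B' (O ⧸ J) := .of_restrictScalars_finite ℂ B' _
    refine wqf p J (Ideal.map_le_iff_le_comap.2 (Ideal.span_le.2 (range_subset_iff.2 fun i => ?_)))
    exact Ideal.mem_map_of_mem (algebraMap B' O) (I := p.under B')
      (x := ⟨a i, Algebra.subset_adjoin ⟨i, rfl⟩⟩) (ha i)
  obtain ⟨r, rp, ri, hr⟩ := Algebra.zariskisMainProperty_iff.1
    (Algebra.ZariskisMainProperty.of_finiteType_of_weaklyQuasiFiniteAt (R := B') p)
  have r0 : r ≠ 0 := fun k => rp (k ▸ p.zero_mem)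
  have : Algebra.IsAlgebraic B' S := ⟨fun x =>
    let ⟨m, hm⟩ := hr x
    .of_mul (mem_nonZeroDivisors_of_ne_zero (pow_ne_zero m r0)) (ri.pow m).isAlgebraic
      hm.isAlgebraic⟩
  have ind := (Algebra.IsAlgebraic.isTranscendenceBasis_of_le_trdeg_of_finite ℂ a
    (by simp [he])).1
  let y' := ψ ∘ a
  let B := Algebra.adjoin ℂ (range y')
  have hB : B = B'.map ψ := by rw [← Algebra.adjoin_image, ← range_comp]
  have le : B ≤ ψ.range := hB ▸ Subalgebra.map_le.2 fun x _ => ⟨x, rfl⟩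
  have i1 : ∀ s, IsIntegral B' s → ψ s ∈ Icl y' := fun s h => h.map_of_comp_eq
    ((ψ.comp B'.val).codRestrict B fun x => hB ▸ ⟨x, x.2, rfl⟩).toRingHom ψ.toRingHom rfl
  have i2 : ∀ x ∈ Icl y', x ∈ ψ.range := fun x h => hn x
    (IsIntegral.map_of_comp_eq (Subalgebra.inclusion le).toRingHom (RingHom.id K) rfl h)
  have le' : B ≤ Icl y' := fun x h => isIntegral_algebraMap (A := K) (x := (⟨x, h⟩ : B))
  have fin' : Module.Finite B (integralClosure B K) := by
    have k : (Icl y').FG := On.fg_of_int hK (B := B) (Subalgebra.fg_def.2 ⟨_, finite_range _, rfl⟩)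
      le' fun _ h => h
    have : Algebra.FiniteType ℂ (integralClosure B K) := (Subalgebra.fg_iff_finiteType _).1 k
    have : Algebra.FiniteType B (integralClosure B K) := .of_restrictScalars_finiteType ℂ B _
    exact Algebra.IsIntegral.finite
  have ψr : ψ r ≠ 0 := (map_ne_zero_iff _ hψ).2 r0
  refine ⟨y', ind.map' hψ, fin', fun x h => ?_, fun h => (hO h).trans ⟨?_, ?_⟩, ?_⟩
  · obtain ⟨x, rfl⟩ := i2 x h
    exact hP x
  · rintro ⟨s, t, t0, t1, rfl⟩
    obtain ⟨m, hm⟩ := hr s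
    obtain ⟨k, hk⟩ := hr t
    refine ⟨_, i1 _ ((ri.pow k).mul hm), _, i1 _ ((ri.pow m).mul hk), ?_⟩
    simp only [map_mul, map_pow]
    refine ⟨by positivity, ?_, by field_simp⟩
    rw [P.ord_mul (by positivity) (by positivity), P.ord_mul (by positivity) t0, P.ord_pow,
      P.ord_pow, hP' r rp, t1]
    simp
  · rintro ⟨s, hs, t, ht, k⟩
    obtain ⟨s, rfl⟩ := i2 s hs
    obtain ⟨t, rfl⟩ := i2 t ht
    exact ⟨s, t, k⟩
  intro Ω _ _ V ξ₀ T h0 hT
  let j : Icl y' →ₐ[ℂ] S :=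
    (AlgEquiv.ofInjective ψ hψ).symm.toAlgHom.comp (Subalgebra.inclusion i2)
  have hj : ∀ x, ψ (j x) = x := fun x =>
    congrArg Subtype.val ((AlgEquiv.ofInjective ψ hψ).apply_symm_apply ⟨x, i2 x x.2⟩)
  have jψ : ∀ s h, j ⟨ψ s, h⟩ = s := fun s h => hψ (hj _)
  have nm : ∀ u ∈ V.nonunits, ∀ v ∈ V, u * v ∈ V.nonunits := fun u hu v hv => by
    rw [V.mem_nonunits_iff] at hu ⊢
    exact map_mul V.valuation u v ▸ mul_lt_one_of_lt_of_le hu (V.valuation_le_one_iff v |>.2 hv)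
  have rm : ∀ {w w' x x'}, w - ξ₀ x ∈ V.nonunits → w' - ξ₀ x' ∈ V.nonunits →
      w * w' - ξ₀ (x * x') ∈ V.nonunits := fun {w w' x x'} h h' => by
    have := add_mem (add_mem (mul_mem h h') (nm _ h _ (h0 x').1)) (nm _ h' _ (h0 x).1)
    rw [map_mul]
    convert this using 1
    ring
  have ra : ∀ {w w' x x'}, w - ξ₀ x ∈ V.nonunits → w' - ξ₀ x' ∈ V.nonunits →
      w + w' - ξ₀ (x + x') ∈ V.nonunits := fun h h' => by
    simpa only [map_add, add_sub_add_comm] using add_mem h h'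
  let R₀ : Subring Ω :=
    { carrier := {w | ∃ x, w - ξ₀ x ∈ V.nonunits}
      mul_mem' := fun ⟨_, h⟩ ⟨_, h'⟩ => ⟨_, rm h h'⟩
      one_mem' := ⟨1, by simp⟩
      add_mem' := fun ⟨_, h⟩ ⟨_, h'⟩ => ⟨_, ra h h'⟩
      zero_mem' := ⟨0, by simp⟩
      neg_mem' := fun ⟨x, h⟩ => ⟨-x, by simpa only [map_neg, neg_sub'] using neg_mem h⟩ }
  let q : Ideal R₀ :=
    { carrier := {w | ∃ x, j x ∈ p ∧ w - ξ₀ x ∈ V.nonunits}
      add_mem' := fun ⟨_, k, h⟩ ⟨_, k', h'⟩ => ⟨_, map_add j _ _ ▸ add_mem k k', ra h h'⟩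
      zero_mem' := ⟨0, by simp⟩
      smul_mem' := fun ⟨_, _, h⟩ _ ⟨_, k', h'⟩ =>
        ⟨_, map_mul j _ _ ▸ p.mul_mem_left _ k', rm h h'⟩ }
  have one : (1 : S) ∉ p := p.primeCompl.one_mem
  obtain ⟨W, w1, w2⟩ := q.image_subset_nonunits_valuationSubring (q.ne_top_iff_one.2 (by
    rintro ⟨x, k, h⟩
    rcases (h0 (1 - x)).2 (by simpa using h) with z | z
    · exact one (by rwa [← sub_eq_zero.1 z, map_one] at k)
    · rw [← hj, hP' _ fun z => one (by simpa using add_mem z k)] at z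
      exact z.false))
  have v1 : ∀ ξ : Icl y' →ₐ[ℂ] Ω, (∀ x, ξ x - ξ₀ x ∈ V.nonunits) →
      (∀ x, ξ x ∈ W) ∧ ∀ x, j x ∈ p → ξ x ∈ W.nonunits := fun ξ h =>
    ⟨fun x => w1 ⟨x, h x⟩, fun x k => w2 ⟨⟨ξ x, x, h x⟩, ⟨x, k, h x⟩, rfl⟩⟩
  let _ : Algebra B (Icl y') := inferInstanceAs (Algebra B (integralClosure B K))
  have : Module.Finite B (Icl y') := fin'
  refine le_trans (cnt_of W T (fun r : B => ξ₀ (algebraMap B _ r))
    ((Ideal.Quotient.mkₐ ℂ J).comp ((IsScalarTower.toAlgHom ℂ S O).comp j)).toLinearMap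
    (range fun i => ⟨y' i, Algebra.subset_adjoin ⟨i, rfl⟩⟩) (fun ξ h => ⟨(v1 ξ fun x =>
      (hT ξ h x).2).1, fun ⟨x, hx⟩ => ?_⟩) ?_ fun x hx => ?_) len
  · exact DFunLike.congr_fun (AlgHom.adjoin_ext (φ₁ := ξ.comp (Subalgebra.inclusion le'))
      (φ₂ := ξ₀.comp (Subalgebra.inclusion le')) fun x hx => (hT ξ h _).1 hx) ⟨x, hx⟩
  · rintro _ ⟨i, rfl⟩
    exact (v1 ξ₀ (by simp)).2 _ ((jψ (a i) _).symm ▸ ha i)
  obtain ⟨m, m1, m2⟩ := (IsLocalization.algebraMap_mem_map_algebraMap_iff p.primeCompl O _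
    (j x)).1 (Ideal.Quotient.eq_zero_iff_mem.1 hx)
  let r' : Icl y' := ⟨ψ r, i1 r ri⟩
  have key : ∀ u ∈ Ideal.span (range a), ∃ N, ∃ w ∈ Ideal.span (algebraMap B (Icl y') ''
      range fun i => ⟨y' i, Algebra.subset_adjoin ⟨i, rfl⟩⟩), j w = r ^ N * u := fun u hu => by
    induction hu using Submodule.span_induction with
    | mem u h =>
      obtain ⟨i, rfl⟩ := h
      exact ⟨0, _, Ideal.subset_span ⟨_, ⟨i, rfl⟩, rfl⟩, (jψ (a i) _).trans (by simp)⟩
    | zero => exact ⟨0, 0, zero_mem _, by simp⟩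
    | add u v _ _ h k =>
      obtain ⟨N, w, h, h'⟩ := h
      obtain ⟨N', w', k, k'⟩ := k
      refine ⟨N + N', r' ^ N' * w + r' ^ N * w',
        add_mem (Ideal.mul_mem_left _ _ h) (Ideal.mul_mem_left _ _ k), ?_⟩
      simp only [map_add, map_mul, map_pow, h', k', r', jψ]
      ring
    | smul s u _ h =>
      obtain ⟨N, w, h, h'⟩ := h
      obtain ⟨k, hk⟩ := hr s
      refine ⟨N + k, ⟨_, i1 _ hk⟩ * w, Ideal.mul_mem_left _ _ h, ?_⟩
      simp only [map_mul j, h', jψ, smul_eq_mul]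
      ring
  obtain ⟨N, w, k1, k2⟩ := key _ m2
  obtain ⟨k, hk⟩ := hr m
  refine ⟨r' ^ N * ⟨_, i1 _ hk⟩, fun ξ h z => ?_, ?_⟩
  · obtain ⟨d, hd⟩ := res (j (r' ^ N * ⟨_, i1 _ hk⟩))
    have v := v1 ξ fun x => (hT ξ h x).2
    rw [← j.commutes, ← map_sub] at hd
    have := sub_mem z (v.2 _ hd)
    rw [map_sub, sub_sub_cancel, ξ.commutes, W.mem_nonunits_iff_or, ← map_inv₀,
      ← ξ.commutes d⁻¹, or_iff_left (not_not.2 (v.1 _)), map_eq_zero] at this
    simp only [this, map_zero, sub_zero, map_mul j, map_pow j, r', jψ] at hd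
    exact mul_mem (pow_mem (S := p.primeCompl) rp N) (mul_mem (pow_mem rp k) m1) hd
  · have : r' ^ N * ⟨_, i1 _ hk⟩ * x = r' ^ k * w := Subtype.ext <| by
      rw [← hj, ← hj]
      simp only [map_mul j, map_pow j, r', jψ, k2]
      congr 1
      ring
    exact this ▸ Ideal.mul_mem_left _ _ k1

open CategoryTheory AlgebraicGeometry TopologicalSpace P287D Lit Lit.QV P299.G P289 P289.H219
open P270L.S (loc Un Dom)
open P289.H719 (germK)

theorem lcl_mlt (c : ℕ) : Lcl (Mlt c) := fun K _ _ s s' P h ⟨e, y, k⟩ =>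
  ⟨e, y, (show Oz s P = Oz s' P from Subalgebra.ext fun _ =>
    forall_congr' fun Q => imp_congr_left (h Q)) ▸ k⟩

/-- a system of parameters of colength at most `c` -/
def MlAt (c : ℕ) (Z : QV) (z : Pt Z.X) : Prop :=
  ∃ (e : ℕ) (y : Fin e → St Z.X z), Z.dim = e ∧ (∀ i, y i ∈ maximalIdeal (St Z.X z)) ∧
    Module.length (St Z.X z) (St Z.X z ⧸ Ideal.span (range y)) ≤ c

theorem cmp_mlt (c : ℕ) : Cmp (fun Z z => IsClosed ({z} : Set Z.X) ∧ MlAt c Z z) (Mlt c) := by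
  rintro X Z f U s₀ z P x h ⟨hz, e, y, he, hy, hl⟩ zU hP sp
  have hx : x ∈ f.f ⁻¹ᵁ U := sp.mem_open U.2 zU
  have hη := gen_mem hx
  let _ : Algebra ℂ Γ(Z.X, U) := (cst Z.str U).toAlgebra
  have : Algebra.FiniteType ℂ Γ(Z.X, U) := cst_finiteType Z.str h.aff
  have h4 : Z.str.appLE ⊤ U le_top ≫ f.f.app U ≫ X.X.presheaf.germ _ _ hη =
      X.str.appTop ≫ X.X.presheaf.germ ⊤ (genericPoint X.X) trivial := by
    have k : ∀ (φ : X.X ⟶ Spec (CommRingCat.of ℂ)) (_ : φ = X.str) (e : f.f ⁻¹ᵁ U ≤ φ ⁻¹ᵁ ⊤),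
        φ.appLE ⊤ _ e ≫ X.X.presheaf.germ _ _ hη =
          X.str.appTop ≫ X.X.presheaf.germ ⊤ (genericPoint X.X) trivial := by
      rintro _ rfl e
      exact (Category.assoc _ _ _).trans (congrArg _ (X.X.presheaf.germ_res (homOfLE e) _ hη))
    rw [Scheme.Hom.app_eq_appLE]
    exact (Scheme.Hom.appLE_comp_appLE_assoc _ _ _ _ _ _ _ _).trans (k _ f.over _)
  let ψ : Γ(Z.X, U) →ₐ[ℂ] X.K :=
    { (germK _ hη).comp (f.f.app U).hom with
      commutes' := fun a =>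
        congrArg (fun φ => φ.hom ((Scheme.ΓSpecIso (CommRingCat.of ℂ)).inv.hom a)) h4 }
  have := f.stein U
  have hb := (asIso (f.f.app U)).commRingCatIsoToRingEquiv.bijective
  have : Nonempty (f.f ⁻¹ᵁ U) := ⟨⟨_, hη⟩⟩
  have hs : ∀ g, g ∈ Algebra.adjoin ℂ (s₀ : Set X.K) ↔ ∃ a, ψ a = g := fun g => by
    rw [h.gen]
    refine ⟨fun hg => ?_, fun ⟨a, ha⟩ x hx => ha ▸ Sy.germK_mem _ hη hx _⟩
    obtain ⟨b, hb'⟩ := Sy.exists_sec _ hη g hg
    obtain ⟨a, rfl⟩ := hb.2 b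
    exact ⟨a, hb'⟩
  have := h.aff.primeIdealOf_isMaximal_of_isClosed ⟨z, zU⟩ hz
  have := h.aff.isLocalization_stalk ⟨z, zU⟩
  let _ := TopCat.Presheaf.algebra_section_stalk Z.X.presheaf (U := U) ⟨z, zU⟩
  obtain ⟨n, hn⟩ := exists_dim X
  have mem : ∀ (Q : Pl X.K), ∀ x ∈ f.f ⁻¹ᵁ U, Dom Q.ring x → ∀ b, ψ b ∈ Q.ring :=
    fun Q x hx k b => k.mem ((h.gen _).1 ((hs _).2 ⟨b, rfl⟩) x hx)
  refine ⟨e, fc_of (h.aff.primeIdealOf ⟨z, zU⟩).asIdeal (ff hn) ψ
    ((X.X.germToFunctionField_injective _).comp hb.1) y hy hl ?_ (fun a ha => ?_) _ P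
    (mem P x hx hP) (fun r hr => Dom.ord hP ?_) fun g => ?_⟩
  · have : Nonempty U := ⟨⟨z, zU⟩⟩
    have := functionField_isFractionRing_of_isAffineOpen Z.X U h.aff
    have : IsScalarTower ℂ Γ(Z.X, U) Z.K :=
      .of_algebraMap_eq fun a => (germK_cst Z.str (gen_mem zU) a).symm
    have : Algebra.IsAlgebraic Γ(Z.X, U) Z.K := IsLocalization.isAlgebraic _ (nonZeroDivisors _)
    have k := trdeg_add_eq ℂ Γ(Z.X, U) (A := Z.K)
    rw [trdeg_eq_zero (A := Z.K), add_zero] at k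
    exact k.trans he
  · refine (hs a).1 ((h.gen a).2 fun x hx => hart fun y hy => ?_)
    obtain ⟨Q, i⟩ := pl y
    rw [← i.2]
    refine Q.ord_nonneg_of_mem ?_
    have := mem Q _ (hy.mem_open (f.f ⁻¹ᵁ U).2 hx) i.dom
    obtain ⟨b, hb⟩ := IsIntegrallyClosed.isIntegral_iff.1 (ha.map_of_comp_eq
      (ψ.range.val.toRingHom.codRestrict Q.ring (by rintro ⟨_, b, rfl⟩; exact this b))
      (RingHom.id X.K) rfl)
    exact (show b.1 = a from hb) ▸ b.2
  · refine (Sy.un_germK _ hη hx _).2 ?_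
    rw [← Scheme.preimage_basicOpen]
    refine sp.mem_open (Z.X.basicOpen r).2 ?_
    rw [← PrimeSpectrum.mem_basicOpen, ← h.aff.fromSpec_preimage_basicOpen] at hr
    exact (congrArg (· ∈ Z.X.basicOpen r) (h.aff.fromSpec_primeIdealOf ⟨z, zU⟩)).mp hr
  · rw [h.oz hx hP]
    refine ⟨fun ⟨a, a1, b, b1, u, k⟩ => ?_, fun ⟨a, b, b0, b1, k⟩ => ⟨_, (hs _).2 ⟨a, rfl⟩, _,
      (hs _).2 ⟨b, rfl⟩, (dom_iff.1 hP _ ((h.gen _).1 ((hs _).2 ⟨b, rfl⟩) x hx)).2 b0 b1, k⟩⟩
    obtain ⟨a, rfl⟩ := (hs a).1 a1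
    obtain ⟨b, rfl⟩ := (hs b).1 b1
    exact ⟨a, b, u.1, Dom.ord hP u, k⟩

theorem bridge_mlt (c : ℕ) (h : ∀ n, Q1F (Mlt c) n) :
    Q1For fun Z z => ∃ (e : ℕ) (y : Fin e → St Z.X z), Z.dim = e ∧
      (∀ i, y i ∈ maximalIdeal (St Z.X z)) ∧
      Module.length (St Z.X z) (St Z.X z ⧸ Ideal.span (range y)) ≤ c := fun d ε R a b r =>
  let ⟨n, n1, H⟩ := bridge (lcl_mlt c) (cmp_mlt c) h d ε R a b r
  ⟨n, n1, fun X Z f ω κ B z h1 h2 h3 h4 h5 h6 h7 => H X Z f ω κ B z h1 h2 h3 h4 h5 h6 ⟨h6, h7⟩⟩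

end Vale.Agent.P283B.Br
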