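import Vale.Agent.P283B.Spec

/-!
# P283B: the class of smooth points of the base
-/

noncomputable section

namespace Vale.Agent.P283B

open P287D

variable {K : Type} [Field K] [Algebra ℂ K]

/-- the local ring of the base at the centre of `P` -/
def Oz (s : Finset K) (P : Pl K) : Subalgebra ℂ K where
  carrier := {h | ∀ Q, Ov s P Q → h ∈ Q.ring}
  mul_mem' a b Q h := mul_mem (a Q h) (b Q h)
  add_mem' a b Q h := add_mem (a Q h) (b Q h)
  algebraMap_mem' c Q _ := Q.con c

/-- the value of `F` at the point `(y, θ)` -/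
def ev {e : ℕ} (y : Fin e → K) (θ : K) (F : Polynomial (MvPolynomial (Fin e) ℂ)) : K :=
  F.eval₂ (MvPolynomial.aeval y : MvPolynomial (Fin e) ℂ →ₐ[ℂ] K) θ

/-- `O` is the local ring, at the centre of `P`, of a standard etale chart over the affine space
with the coordinates `y` -/
structure Et (O : Subalgebra ℂ K) (P : Pl K) {e : ℕ} (y : Fin e → K) (θ : K)
    (F : Polynomial (MvPolynomial (Fin e) ℂ)) : Prop where
  ind : AlgebraicIndependent ℂ y
  mon : F.Monic
  root : ev y θ F = 0
  ne : ev y θ F.derivative ≠ 0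
  un : P.ord (ev y θ F.derivative) = 0
  loc : ∀ h, h ∈ O ↔ ∃ a b, ev y θ b ≠ 0 ∧ P.ord (ev y θ b) = 0 ∧ h = ev y θ a / ev y θ b

/-- the smooth points of the base -/
def Smo : Bs := fun K _ _ s P =>
  ∃ (e : ℕ) (y : Fin e → K) (θ : K) (F : Polynomial (MvPolynomial (Fin e) ℂ)), Et (Oz s P) P y θ F

end Vale.Agent.P283B
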