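import Vale.Agent.P283B.BR.Neg
import Vale.Agent.P287D.Pr.Lr
import Vale.Agent.P287D.Rl.Rel

/-!
# P283B, block BR: globalisation
-/

set_option linter.unusedVariables false
set_option linter.unusedSectionVars false

open Set Function
open Vale.Agent.P287D

noncomputable section

namespace Vale.Agent.P283B.Br

variable {K : Type} [Field K] [Algebra ℂ K] {n : ℕ} {Λ L Ω β γ Γ H D D' : BD K}
  {s₀ s' : Finset K} {P Q R₀ : Pl K}

/-- `ℚ`-factorial good minimal models -/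
def MINQ : Prop := ForS fun n K _ _ => ∀ Ω D : BD K, Smp Ω → Big Ω → QF n Ω → CarQ D →
  Mm.Adw n Ω D → Psef D → ∃ L N, ZD D N ∧ CarQ N ∧ Smp L ∧ Big L ∧ QF n L ∧ Dsc L (D - N) ∧
    ∀ P, On n L P ↔ On n Ω P ∧ N P = 0

/-- negativity on a model, over `U` -/
theorem Rw.neg0 (r : Rw) (hK : FF K (n + 1)) (hΛ : Smp Λ) (hb : Big Λ) (dH : Dsc Λ H) (h0 : 0 ≤ H)
    {c : ℝ} (h : Nef (β + c • Λ)) (k : ∀ P, On n Λ P → H P = 0 → β P ≤ 0) (e : H P = 0) :
    β P ≤ 0 := by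
  have a : β ∈ Car K := by simpa using sub_mem h.car (Submodule.smul_mem _ c hΛ.car)
  obtain ⟨j, hj⟩ := ((r.fin hK hΛ hb a).image fun P => β P / H P).bddAbove
  obtain ⟨d, -, hd⟩ := (dH.smul (max j 0)).neg.exists_add
  have := r.ng.neg n K hK Λ (β - max j 0 • H) (c + d) hΛ hb
    (sub_mem a (Submodule.smul_mem _ _ dH.car)) (by
      rw [show β - max j 0 • H + (c + d) • Λ = β + c • Λ + (-(max j 0 • H) + d • Λ) by module]
      exact h.add (hd d le_rfl).nef) (fun Q o => by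
      change β Q - max j 0 * H Q ≤ 0
      rcases (h0 Q).eq_or_lt with z | z
      · have z' : H Q = 0 := z.symm
        simpa [z'] using k Q o z'
      have z' : 0 < H Q := z
      by_cases y : β Q = 0
      · rw [y, zero_sub, neg_nonpos]
        positivity
      · have := (div_le_iff₀ z').1 ((hj ⟨Q, ⟨o, y⟩, rfl⟩).trans (le_max_left j 0))
        linarith) P
  simpa [e] using this

/-- a global model of Fano type, over a base which is the old one over `U` -/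
structure Gl (n : ℕ) (Λ : BD K) (s₀ : Finset K) (L : BD K) (s' : Finset K) : Prop where
  ft : FTo n L s'
  qf : QF n L
  des : Dsc (mx s') (mx s₀)
  fn : ∀ P, Fn s₀ P → mx s' P = 0
  up : ∀ P, On n Λ P → Fn s₀ P → On n L P

theorem exists_gl (r : Rw) (hQ : MINQ) (hL : Mm.REL) (hK : FF K (n + 1)) (h : LRel n Λ s₀ Γ) :
    ∃ L s', Gl n Λ s₀ L s' := by
  classical
  obtain ⟨Γ₀, c, q0, d0, s0, b0, k0, y0⟩ := h.ft
  have H0 := mx_nonneg h.one
  obtain ⟨s, κ, T, hh, l, -, a1, a2⟩ := exists_ls hK finite_empty (toFinite {Γ₀, Λ, mx s₀})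
    (insert_subset d0.car (insert_subset h.smp.car (singleton_subset_iff.2 (mx_mem_Car _))))
  have u0 := a2 Γ₀ (.inl rfl)
  have dΛ := (a2 Λ (.inr (.inl rfl))).1
  have dH := (a2 _ (.inr (.inr rfl))).1
  obtain ⟨θ, hθ⟩ : ∃ θ : Pl K → ℝ,
    θ = fun P => if Fn s₀ P then max (-dsc (n + 1) Γ₀ P) 0 else 0 := ⟨_, rfl⟩
  have t0 : ∀ P, 0 ≤ θ P ∧ θ P < 1 ∧ ∃ x : ℚ, θ P = x := fun P => by
    obtain ⟨x, hx⟩ := q0.rat P
    obtain ⟨z, hz⟩ := (r.md.isb n K hK).2.2 P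
    simp only [hθ]
    split_ifs with w
    · exact ⟨le_max_right _ _, max_lt (by linarith [k0 P w]) one_pos, max (x - z) 0, by
        simp [dsc, hx, hz]⟩
    · exact ⟨le_rfl, one_pos, 0, by simp⟩
  obtain ⟨dE, eE⟩ := l.hull_sum θ
  generalize ∑ P ∈ T, θ P • hh P = E at dE eE
  have d1 := a1.1.add dE
  have v : ∀ P, On n (mx s) P → dsc (n + 1) (κ + E) P = -E P := fun P o => by
    rw [Pr.dsc_add, l.d0 o, zero_sub]
  have E0 : ∀ P, On n (mx s) P → 0 ≤ E P := fun P o => by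
    rw [eE P o]
    split_ifs
    exacts [(t0 P).1, le_rfl]
  have k1 : Klt (n + 1) (κ + E) := fun Q => by
    have := l.gt (Q := Q) (Γ := κ + E) (a1.sub (a1.add ⟨dE, fun P o p => by rw [eE P o, if_neg p]⟩))
      le_rfl one_pos fun P p _ => by
        rw [v P (l.on P p), eE P (l.on P p), if_pos p]
        linarith [(t0 P).2.1]
    linarith
  have y1 : Bdy n (mx s) (κ + E) := fun P o => by
    rw [v P o]
    exact neg_nonpos.2 (E0 P o)
  have q1 : CarQ (κ + E) := (CarZ.carQ l.kz).add (Gs.carQ_of r.ng hK l.smp l.big dE fun P o => by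
    rw [eE P o]
    split_ifs
    exacts [(t0 P).2.2, ⟨0, by simp⟩])
  have w : ∀ P, On n (mx s) P → Fn s₀ P → (κ + E - Γ₀) P = max (dsc (n + 1) Γ₀ P) 0 :=
    fun P o f => by
      have x := l.d0 o
      have z := (a1.sub u0).2 P o
      simp only [dsc, Pi.sub_apply, Pi.add_apply, eE P o, hθ, if_pos f] at x z ⊢
      split_ifs with p
      · rcases le_total (cn K (n + 1) P - Γ₀ P) 0 with e | e
        · rw [max_eq_left (neg_nonneg.2 e), max_eq_right e]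
          linarith
        · rw [max_eq_right (neg_nonpos.2 e), max_eq_left e]
          linarith
      · rw [show cn K (n + 1) P - Γ₀ P = 0 by linarith [z p], max_self]
        linarith [z p]
  obtain ⟨e₀, -, he⟩ := r.lh hK l.smp l.big (d1.sub u0.1) dH H0 fun P o f =>
    w P o f ▸ le_max_right _ _
  obtain ⟨e, e1⟩ := exists_nat_ge (max e₀ (max c 0 + (n + 2)))
  obtain ⟨e2, e3⟩ := max_le_iff.1 e1
  have sH : ∀ {t : ℝ}, 0 ≤ t → Smp (t • mx s₀) := (smp_mx s₀).smul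
  have nb : ∀ t : ℝ, max c 0 ≤ t → Nef (t • mx s₀ - Γ₀) ∧ Big (t • mx s₀ - Γ₀) := fun t ht =>
    ⟨by simpa [sub_eq_add_neg] using ((sH ((le_max_right _ _).trans ht)).add s0).nef, by
      rw [show t • mx s₀ - Γ₀ = c • mx s₀ - Γ₀ + (t - c) • mx s₀ by module]
      exact b0.add_smp (sH (sub_nonneg.2 ((le_max_left _ _).trans ht)))⟩
  obtain ⟨D, hD⟩ : ∃ D, D = κ + E - Γ₀ + (e : ℝ) • mx s₀ := ⟨_, rfl⟩
  have D0 : 0 ≤ D := by
    rw [hD, show (e : ℝ) = e₀ + (e - e₀) by ring, add_smul, ← add_assoc]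
    exact add_nonneg he (smul_nonneg (sub_nonneg.2 e2) H0)
  have dD : Dsc (mx s) D := hD ▸ (d1.sub u0.1).add (dH.smul _)
  have qD : CarQ D := hD ▸ (q1.sub q0).add (by simpa using (carQ_mx s₀).qsmul e)
  have n1 := nb e (by linarith [(Nat.cast_nonneg n : (0 : ℝ) ≤ n)])
  have n2 := nb (e - (n + 2)) (by linarith)
  have x1 : D - (κ + E) = (e : ℝ) • mx s₀ - Γ₀ := by rw [hD]; abel
  have x2 : D - (κ + E) - (n + 2 : ℝ) • mx s₀ = ((e : ℝ) - (n + 2)) • mx s₀ - Γ₀ := by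
    rw [x1]; module
  obtain ⟨L, N, z, qN, sL, bL, fL, dL, oL⟩ := hQ n K hK _ D l.smp l.big l.qf qD
    ⟨dD, _, d1.car, k1, y1, x1 ▸ n1.1, x1 ▸ n1.2⟩ (Eff.of_nonneg D0).psef
  have rl := hL n K hK _ D _ N s₀ l.smp l.big qD dD d1.car k1 y1 dH (x2 ▸ n2.1) (x2 ▸ n2.2) z qN
  obtain ⟨m, s', m0, -, hm⟩ := Rl.smp_carQ z.smp (qD.sub qN)
  have m1 : (0 : ℝ) < m := Nat.cast_pos.2 m0
  have DΛ : ∀ P, On n Λ P → Fn s₀ P → D P = 0 := fun P o f => by
    rw [hD, Pi.add_apply, w P (Mm.on_mono r.rs hK h.smp dΛ o) f, max_eq_right (y0 P o f),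
      Pi.smul_apply, show mx s₀ P = 0 from f, smul_zero, add_zero]
  have ND : ∀ P, Fn s₀ P → N P = D P := fun P f => le_antisymm (z.fix D (.refl D0) P) (by
    obtain ⟨G, g1, g2⟩ := z.smp.exists_rep (finite_singleton P)
    have := r.lh' hK h.smp h.big (.zero h.smp) (.of_prn h.smp g1.2) h.des₀ H0 (fun Q o f => by
      have a : 0 ≤ G Q := g1.1 Q
      have b : 0 ≤ N Q := z.nn Q
      simp only [Pi.sub_apply, Pi.zero_apply, DΛ Q o f]
      linarith) f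
    simp only [Pi.sub_apply, Pi.zero_apply, g2 P rfl] at this
    linarith)
  have x3 : (m : ℝ)⁻¹ • mx s' - (κ + E - N) = (e : ℝ) • mx s₀ - Γ₀ := by
    rw [← hm, inv_smul_smul₀ m1.ne', ← x1]; abel
  refine ⟨L, s', ⟨sL, bL, hm ▸ dL.smul _, κ + E - N, (m : ℝ)⁻¹, fun P => ?_, fun P o => ?_,
    x3 ▸ n1.1, x3 ▸ n1.2⟩, fL, hm ▸ rl.smul_left m1, fun P f => by simp [← hm, ND P f],
    fun P o f => (oL P).2 ⟨Mm.on_mono r.rs hK h.smp dΛ o, (ND P f).trans (DΛ P o f)⟩⟩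
  · have a := k1 P
    have b : 0 ≤ N P := z.nn P
    simp only [dsc, Pi.sub_apply] at a ⊢
    linarith
  · have a := y1 P ((oL P).1 o).1
    simp only [dsc, Pi.sub_apply, ((oL P).1 o).2] at a ⊢
    linarith

theorem Gl.ov (g : Gl n Λ s₀ L s') (r : Rw) (hK : FF K (n + 1)) (h1 : 1 ∈ s₀) (f : Fn s₀ P) :
    Ov s₀ P Q ↔ Ov s' P Q :=
  ⟨r.ovl hK (mx_mem_Car _) (mx_nonneg h1) (zero_mem _) g.fn f, fun k => CLe.of_dsc k g.des⟩

/-- the pair on a global model -/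
theorem exists_rel (r : Rw) (h0 : FTM0) (h1 : FTM1) (hK : FF K (n + 1)) (h : LRel n Λ s₀ Γ)
    (g : Gl n Λ s₀ L s') : ∃ Λ' Γ', Rel n Λ' s' Γ' ∧ (∀ P, Fn s₀ P → Γ' P = Γ P) ∧
      ∀ P, On n Λ' P → Fn s₀ P → On n Λ P := by
  classical
  have H0 := mx_nonneg h.one
  have sL := g.ft.smp
  have bL := g.ft.big
  obtain ⟨Z, hZ⟩ : ∃ Z : BD K, Z = fun P =>
    if Fn s₀ P then (if On n Λ P then Γ P else Γ P - 1) else cn K (n + 1) P := ⟨_, rfl⟩
  obtain ⟨G, dG, eG⟩ := Gs.exists_hull r.ng hK sL g.qf (Z := Z)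
    ((((r.fin hK sL bL h.des.car).union (r.md.exc n K hK L Λ sL bL h.smp h.big)).union
      (Gs.isb_fin hK r.ng sL bL (r.md.isb n K hK).2.1)).subset fun P p => by
        by_contra k
        simp only [mem_union, mem_ofPred_eq, p.1, true_and, not_or, not_not] at k
        exact p.2 (by simp [hZ, k.1.1, k.1.2, k.2]))
  have qG := Gs.carQ_of r.ng hK sL bL dG fun P o => by
    obtain ⟨x, hx⟩ := h.rat.rat P
    obtain ⟨z, hz⟩ := (r.md.isb n K hK).2.2 P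
    simp only [eG P o, hZ]
    split_ifs
    exacts [⟨x, hx⟩, ⟨x - 1, by simp [hx]⟩, ⟨z, by simp [hz]⟩]
  have le : ∀ {Λ' D'}, FTo n Λ' s' → QF n Λ' → Hull n Λ' (-G) D' → (∀ P, On n Λ' P → On n L P) →
      ∀ P, Fn s₀ P → -Γ P ≤ D' P := fun a b c d P f =>
    lneg' r hK H0 a.smp a.big b (a.des.trans g.des) c.1 (neg_mem h.des.car) h.nef (fun Q o f => by
      simp only [c.2 Q o, Pi.neg_apply, eG Q (d Q o), hZ, if_pos (show Fn s₀ Q from f)]
      split_ifs <;> simp) f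
  obtain ⟨c, hc⟩ : ∃ c : ℝ, Psef (-G + c • mx s') := by
    by_contra k
    obtain ⟨Λ', D', s₁, m, a1, -, a2, a3, -, -, a4, a5, a6, a7, -⟩ :=
      h1 n K hK L (-G) s' g.ft g.qf dG.neg qG.neg (not_exists.1 k)
    obtain ⟨j, j0, hj⟩ := r.lhc hK (add_mem a3.1.car h.des.car) (mx_mem_Car s₀) H0 fun P f => by
      linarith [le a1 a2 a3 a4 P f, Pi.add_apply D' Γ P]
    have m0 : 0 < |m| + 1 := by positivity
    have d := a5.trans g.des
    refine a6 ((((Dsc.refl (smp_mx s₁)).smul (|m| + 1)).add (d.smul j)).big (bigu' r n K hK _ _ _ _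
      H0 (((smp_mx s₁).smul m0.le).add ((smp_mx s₀).smul j0.le))
      ((d.smul_left m0).add_left ((smp_mx s₀).smul j0.le)) (neg_mem h.des.car) h.nef
      (a7.big_iff.1 a1.big) ?_))
    rw [show (|m| + 1) • mx s₁ + j • mx s₀ - (m • mx s₁ - D') - -Γ =
      D' + Γ + j • mx s₀ + (|m| + 1 - m) • mx s₁ by module]
    exact (Eff.of_nonneg hj).add ((eff_mx s₁).smul (by linarith [le_abs_self m]))
  obtain ⟨Λ', D', c', a1, a2, a3, a4, a5, a6⟩ := h0 n K hK L (-G) s' c g.ft g.qf dG.neg qG.neg hc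
  have z := (a6 c' le_rfl).1
  have sD : Smp (D' + c' • mx s') := by
    simpa only [show -G + c' • mx s' - (-G - D') = D' + c' • mx s' by abel] using z.smp
  obtain ⟨t, -, ht⟩ := h.des.exists_add
  have eq : ∀ P, Fn s₀ P → -D' P = Γ P := fun P f => by
    have x := r.neg0 hK h.smp h.big h.des₀ H0 (β := D' + c' • mx s' + Γ) (c := t)
      (add_assoc _ Γ _ ▸ (sD.add (ht t le_rfl)).nef) (fun Q o f => by
        have y : 0 ≤ -G Q - D' Q := z.nn Q
        simp only [eG Q (g.up Q o f), hZ, if_pos (show Fn s₀ Q from f), if_pos o] at y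
        simp only [Pi.add_apply, Pi.smul_apply, g.fn Q f, smul_zero]
        linarith) f
    simp only [Pi.add_apply, Pi.smul_apply, g.fn P f, smul_zero] at x
    linarith [le a1 a2 a3 (fun P o => ((a5 P).1 o).1) P f]
  have v : ∀ P, On n Λ' P → -D' P = Z P := fun P o => by
    rw [((a5 P).1 o).2, Pi.neg_apply, neg_neg, eG P ((a5 P).1 o).1]
  have dn : ∀ P, On n Λ' P → Fn s₀ P → On n Λ P := fun P o f => by_contra fun k => by
    have x := v P o
    simp only [eq P f, hZ, if_pos f, if_neg k] at x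
    linarith
  refine ⟨Λ', -D', ⟨⟨a1.smp, a1.big, a3.1.neg, a4.neg, fun P o => ?_⟩, a1, c', by
    simpa [add_comm] using sD.nef⟩, eq, dn⟩
  by_cases f : Fn s₀ P
  · simpa [dsc, eq P f] using h.bdy P (dn P o f) f
  · simp [dsc, v P o, hZ, f]

/-- **GLOB** -/
theorem glob_of (r : Rw) (hQ : MINQ) (hL : Mm.REL) (h0 : FTM0) (h1 : FTM1) : GLOB :=
  fun C hC n hF ε q e0 q0 => by
  obtain ⟨N, N0, hN⟩ := hF ε q e0 q0
  refine ⟨N, N0, fun K _ _ hK Λ Γ s₀ R₀ h f c a b => ?_⟩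
  obtain ⟨L, s', g⟩ := exists_gl r hQ hL hK h
  obtain ⟨Λ', Γ', x, y, z⟩ := exists_rel r h0 h1 hK h g
  have o : ∀ P, Ov s₀ R₀ P ↔ Ov s' R₀ P := fun P => g.ov r hK h.one f
  have u : ∀ P, Ov s' R₀ P → Fn s₀ P := fun P k => Ov.fn h.one f ((o P).2 k)
  have v : ∀ P, Ov s' R₀ P → ld (n + 1) Γ' P = ld (n + 1) Γ P := fun P k => by
    simp [ld, dsc, y P (u P k)]
  obtain ⟨j, j1, j2⟩ := hN K hK Λ' Γ' s' R₀ x
    (fun P k => hC K s₀ s' P (fun Q => g.ov r hK h.one (u P k)) (c P ((o P).2 k)))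
    (fun P p k => v P k ▸ a P (z P p (u P k)) ((o P).2 k)) fun P k => v P k ▸ b P ((o P).2 k)
  exact ⟨j, ⟨j1.1, fun P k => y P (u P ((o P).1 k)) ▸ j1.2 P ((o P).1 k)⟩,
    fun P k => j2 P ((o P).1 k)⟩

end Vale.Agent.P283B.Br
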