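import Vale.Agent.P283B.BR.Bas
import Vale.Agent.P287D.Va.Cone

/-!
# P283B, block BR: generators of Cartier divisors
-/

set_option linter.all false

open Set CategoryTheory AlgebraicGeometry TopologicalSpace Order IsLocalRing

noncomputable section

namespace Vale.Agent.P283B.Br

open P287D Lit Lit.QV P299.G P289 P289.H219
open P270L.S (loc Un Dom un_toK toK_mem mem_loc_gen loc_mono)

variable {X : QV} {g h : X.K} {x x' : X.X} {y : X.PrimeDiv} {D A : X.QDiv} {m : ℕ}
  {W : X.X.Opens} {s : Finset X.K} {P : Pl X.K}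

theorem qord_mul (hg : g ≠ 0) (hh : h ≠ 0) (y : X.PrimeDiv) : ord (g * h) y = ord g y + ord h y :=
  Scheme.ord_mul hg hh

theorem qord_inv (g : X.K) (y : X.PrimeDiv) : ord g⁻¹ y = -ord g y := by
  obtain ⟨P, -, e⟩ := pl y
  rw [← e, ← e, P.ord_inv]

theorem qord_div (hg : g ≠ 0) (hh : h ≠ 0) (y : X.PrimeDiv) : ord (g / h) y = ord g y - ord h y := by
  rw [div_eq_mul_inv, qord_mul hg (inv_ne_zero hh), qord_inv, sub_eq_add_neg]

theorem qord_pow (g : X.K) (k : ℕ) (y : X.PrimeDiv) : ord (g ^ k) y = k * ord g y := by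
  obtain ⟨P, -, e⟩ := pl y
  rw [← e, ← e, P.ord_pow]

theorem qord_loc (hg : g ∈ loc x) (hy : y.1 ⤳ x) : 0 ≤ ord g y := by
  obtain ⟨P, a, e⟩ := pl y
  exact e g ▸ P.ord_nonneg_of_mem ((a g).2 (loc_mono hy hg))

theorem qord_un (hg : Un x g) (hy : y.1 ⤳ x) : ord g y = 0 := by
  have h1 := qord_loc hg.2.1 hy
  have h2 := qord_loc hg.2.2 hy
  rw [qord_inv] at h2
  omega

theorem un_of_ord (hg : g ≠ 0) (e : ∀ y : X.PrimeDiv, y.1 ⤳ x → ord g y = 0) : Un x g :=
  ⟨hg, hart fun y hy => (e y hy).ge, hart fun y hy => by rw [qord_inv, e y hy, neg_zero]⟩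

theorem gn_spec (a : Generates D m g x) (e : x' ⤳ x) : Generates D m g x' :=
  ⟨a.1, fun y hy => a.2 y (hy.trans e)⟩

theorem gn_un (a : Generates D m g x) (b : Generates D m h x) : Un x (g / h) :=
  un_of_ord (div_ne_zero a.1 b.1) fun y hy => by
    have := (a.2 y hy).trans (b.2 y hy).symm
    rw [qord_div a.1 b.1, sub_eq_zero]
    exact_mod_cast add_right_cancel this

theorem gn_of_un (a : Generates D m g x) (b : Un x (h / g)) : Generates D m h x := by
  have h0 : h ≠ 0 := (div_ne_zero_iff.1 b.1).1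
  refine ⟨h0, fun y hy => ?_⟩
  have := qord_un b hy
  rw [qord_div h0 a.1, sub_eq_zero] at this
  rw [this, a.2 y hy]

theorem sec_div (a : IsSectionOn D m W h) (hx : x ∈ W) (b : Generates D m g x) : h / g ∈ loc x :=
  hart fun y hy => by
    have h1 := a.2 y (hy.mem_open W.2 hx)
    have h2 := b.2 y hy
    rw [qord_div a.1 b.1, sub_nonneg]
    exact_mod_cast (by linarith : (ord g y : ℚ) ≤ ord h y)

theorem gn_pow (a : Generates D m g x) (k : ℕ) : Generates D (k * m) (g ^ k) x :=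
  ⟨pow_ne_zero k a.1, fun y hy => by
    rw [qord_pow]
    push_cast
    linear_combination (k : ℚ) * a.2 y hy⟩

theorem gn_div (a : Generates (D + A) m g x) (b : Generates A m h x) : Generates D m (g / h) x :=
  ⟨div_ne_zero a.1 b.1, fun y hy => by
    have h1 := a.2 y hy
    rw [Finsupp.add_apply] at h1
    rw [qord_div a.1 b.1]
    push_cast
    linear_combination h1 - b.2 y hy⟩

theorem gn_neg (a : Generates D m g x) : Generates (-D) m g⁻¹ x :=
  ⟨inv_ne_zero a.1, fun y hy => by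
    rw [qord_inv, Finsupp.neg_apply]
    push_cast
    linear_combination -a.2 y hy⟩

theorem gn_smul (k : ℕ) : Generates (k • D) m g x ↔ Generates D (k * m) g x :=
  and_congr_right fun _ => forall₂_congr fun y _ => by
    rw [Finsupp.smul_apply, nsmul_eq_mul, Nat.cast_mul, mul_left_comm, mul_assoc]

/-- two generators for different multiples -/
theorem gn_cmp {m' : ℕ} (a : Generates D m g x) (b : Generates D m' h x) :
    Un x (g ^ m' / h ^ m) := gn_un (gn_pow a m') (mul_comm m m' ▸ gn_pow b m)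

theorem gn_ord {m' : ℕ} (hP : Dom P.ring x) (a : Generates D m g x) (b : Generates D m' h x) :
    m' * P.ord g = m * P.ord h := by
  have := Dom.ord hP (gn_cmp a b)
  rwa [P.ord_div (pow_ne_zero _ a.1) (pow_ne_zero _ b.1), P.ord_pow, P.ord_pow, sub_eq_zero] at this

theorem Gen.lst {V : ValuationSubring X.K} (a : Gen s D m W) (hV : Dom V x) (hx : x ∈ W)
    (b : Lst V s g) : Generates D m g x := by
  obtain ⟨h, h1, h2⟩ := a.gen x hx
  exact gn_of_un h2 (hV.un (sec_div (a.sec g b.1) hx h2) (div_ne_zero b.2.1 h2.1)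
    (by rw [inv_div]; exact b.2.2 h h1))

theorem Gen.nz (a : Gen s D m W) (hx : x ∈ W) : Nz s :=
  let ⟨g, h1, h2⟩ := a.gen x hx
  ⟨g, h1, h2.1⟩

theorem Gen.mz (a : Gen s D m W) (hP : Dom P.ring x) (hx : x ∈ W) (b : Generates D m g x) :
    P.mz s = -P.ord g := by
  obtain ⟨h, h1, h2⟩ := a.gen x hx
  have e := Dom.ord hP (gn_un h2 b)
  rw [P.ord_div h2.1 b.1, sub_eq_zero] at e
  rw [← e]
  refine P.mz_eq h1 h2.1 fun k hk k0 => ?_
  have := P.ord_nonneg_of_mem (hP.mem (sec_div (a.sec k hk) hx h2))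
  rwa [P.ord_div k0 h2.1, sub_nonneg] at this

end Vale.Agent.P283B.Br
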