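import Vale.Agent.P283B.BR.St
import Vale.Agent.P287D.On.Nor
import Vale.Agent.P287D.In.Bas
import Vale.Agent.P287D.Cb.Ad

/-!
# P283B, block BR: from curves to flags (**PTC**), the order of a form (**FORM**)
-/

set_option linter.unusedSectionVars false

open Set
open Vale.Agent.P297Z
open Vale.Agent.P285N.Brep (jac Fr)

noncomputable section

namespace Vale.Agent.P283B.Br

open P287D

variable {K F : Type} [Field K] [Algebra ℂ K] [Field F] [Algebra ℂ F] {n : ℕ}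

namespace Ptc

/-- a function without poles is constant -/
theorem const_of (hK : FF K n) {f : K} (h : ∀ P : Pl K, f ∈ P.ring) :
    ∃ c, f = algebraMap ℂ K c := by
  by_cases f0 : f = 0
  · exact ⟨0, by rw [f0, map_zero]⟩
  have al : IsAlgebraic ℂ f := by
    by_contra hf
    obtain ⟨P, -, b⟩ := On.div hK (B := Algebra.adjoin ℂ {f⁻¹})
      (Subalgebra.fg_def.2 ⟨_, finite_singleton _, rfl⟩) (Algebra.subset_adjoin rfl)
      (inv_ne_zero f0) fun e => by
        rw [inv_inv, Algebra.adjoin_singleton_eq_range_aeval] at e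
        obtain ⟨p, hp⟩ := e
        refine hf (IsAlgebraic.inv_iff.1 ⟨Polynomial.X * p - 1, fun z => ?_, ?_⟩)
        · simpa using congrArg (Polynomial.coeff · 0) z
        · rw [map_sub, map_mul, Polynomial.aeval_X, map_one,
            show Polynomial.aeval f⁻¹ p = f from hp, inv_mul_cancel₀ f0, sub_self]
    have := Pl.ord_nonneg_of_mem _ (h P)
    rw [Pl.ord_inv] at b
    omega
  have := minpoly.mem_range_of_degree_eq_one ℂ f
    (IsAlgClosed.degree_eq_one_of_irreducible ℂ (minpoly.irreducible al.isIntegral))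
  obtain ⟨c, hc⟩ := this
  exact ⟨c, hc.symm⟩

theorem mem_of_mz {s : Finset K} {P : Pl K} (h : mx s P = 0) {y : K} (hy : y ∈ s) :
    y ∈ P.ring := by
  have e : P.mz s = 0 := by
    rw [mx_apply] at h
    exact_mod_cast h
  have := P.mem_ring_mz (Submodule.subset_span hy)
  rwa [e, zpow_zero, mul_one] at this

theorem fg_top : Fg (⊤ : ValuationSubring K) (id : K → K) where
  con _ := ⟨trivial, rfl⟩
  add _ _ _ _ := rfl
  mul _ _ _ _ := rfl
  zero a _ := by
    rw [ValuationSubring.mem_nonunits_iff_or]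
    exact ⟨Or.inl, fun h => h.resolve_right fun k => k trivial⟩

theorem mem_cmp {P : Pl K} {U : ValuationSubring P.κ} {x : K} :
    x ∈ On.cmpV P U ↔ x ∈ P.ring ∧ P.rd x ∈ U := Iff.rfl

theorem rd_zero (P : Pl K) : P.rd 0 = 0 := (On.rd_zero_iff P (zero_mem _)).2 (Or.inl rfl)

theorem rd_inv (P : Pl K) {x : K} (a : x ∈ P.ring) (b : x⁻¹ ∈ P.ring) :
    P.rd x⁻¹ = (P.rd x)⁻¹ := by
  have := On.rd_div P (one_mem _) a b
  rwa [one_div, On.rd_one, one_div] at this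

theorem fg_cmp (P : Pl K) {U : ValuationSubring P.κ} {ρ : P.κ → F} (h : Fg U ρ) :
    Fg (On.cmpV P U) fun x => ρ (P.rd x) := by
  have hc : ∀ c, P.rd (algebraMap ℂ K c) = algebraMap ℂ P.κ c := fun c =>
    On.rd_eq P (P.con c)
  refine ⟨fun c => ⟨⟨P.con c, ?_⟩, ?_⟩, fun a ha b hb => ?_, fun a ha b hb => ?_, fun a ha => ?_⟩
  · rw [hc]
    exact (h.con c).1
  · rw [hc]
    exact (h.con c).2
  · rw [On.rd_add P ha.1 hb.1]
    exact h.add _ ha.2 _ hb.2
  · rw [On.rd_mul P ha.1 hb.1]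
    exact h.mul _ ha.2 _ hb.2
  · rw [h.zero _ ha.2, ValuationSubring.mem_nonunits_iff_or, ValuationSubring.mem_nonunits_iff_or,
      mem_cmp]
    by_cases a0 : a = 0
    · simp [a0, rd_zero]
    by_cases b : a⁻¹ ∈ P.ring
    · have o := Pl.ord_unit _ ha.1 b
      have r0 : P.rd a ≠ 0 := fun e => ((On.rd_zero_iff P ha.1).1 e).elim a0 fun z => by omega
      simp [a0, b, r0, rd_inv P ha.1 b]
    · have r0 : P.rd a = 0 := (On.rd_zero_iff P ha.1).2 (Or.inr (Pl.ord_pos_of_inv_notMem _ b))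
      simp [b, r0]

theorem rs_mem (P : Pl K) {s : Finset K} {g : K} (hg : g ∈ s) :
    P.rd (g * P.t ^ P.mz s) ∈ P.rs s := by
  classical
  exact Finset.mem_image_of_mem _ hg

theorem of_rs (P : Pl K) {s : Finset K} {x : P.κ} (hx : x ∈ P.rs s) :
    ∃ g ∈ s, P.rd (g * P.t ^ P.mz s) = x := by
  classical
  exact Finset.mem_image.1 hx

theorem nz_rs (P : Pl K) {s : Finset K} (h : Nz s) : Nz (P.rs s) := by
  obtain ⟨f, hf, f0, e⟩ := P.exists_mz h
  refine ⟨_, rs_mem P hf, fun z => ?_⟩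
  rcases (On.rd_zero_iff P (P.mem_ring_mz (Submodule.subset_span hf))).1 z with k | k
  · exact mul_ne_zero f0 (zpow_ne_zero _ P.t_ne) k
  · rw [P.ord_mul_t f0] at k
    omega

/-- the quotients of the members of a system by a member with a nonzero restriction -/
theorem rd_quot (P : Pl K) {s : Finset K} {a g : K} (ha : a ∈ s) (hg : g ∈ s)
    (h0 : P.rd (a * P.t ^ P.mz s) ≠ 0) : a ≠ 0 ∧ g / a ∈ P.ring ∧
      P.rd (g / a) = P.rd (g * P.t ^ P.mz s) / P.rd (a * P.t ^ P.mz s) := by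
  have m1 := P.mem_ring_mz (Submodule.subset_span ha)
  have m2 := P.mem_ring_mz (Submodule.subset_span hg)
  have t0 : P.t ^ P.mz s ≠ 0 := zpow_ne_zero _ P.t_ne
  have k := (On.rd_zero_iff P m1).not.1 h0
  have a0 : a ≠ 0 := fun e => k (Or.inl (by rw [e, zero_mul]))
  have m3 : (a * P.t ^ P.mz s)⁻¹ ∈ P.ring := by
    by_contra e
    exact k (Or.inr (Pl.ord_pos_of_inv_notMem _ e))
  have e : g / a = g * P.t ^ P.mz s / (a * P.t ^ P.mz s) := (mul_div_mul_right _ _ t0).symm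
  refine ⟨a0, ?_, ?_⟩
  · rw [e, div_eq_mul_inv]
    exact mul_mem m2 m3
  · rw [e, On.rd_div P m2 m1 m3]

open Classical in
theorem lst_cmp (P : Pl K) {U : ValuationSubring P.κ} {s : Finset K} {x : P.κ}
    (h : Lst U (P.rs s) x) (ρ : P.κ → F) : ∃ a, Lst (On.cmpV P U) s a ∧
      (s.image fun g => ρ (P.rd (g / a))) = (P.rs s).image fun g => ρ (g / x) := by
  obtain ⟨a, ha, e⟩ := of_rs P h.1
  have h0 : P.rd (a * P.t ^ P.mz s) ≠ 0 := e ▸ h.2.1
  refine ⟨a, ⟨ha, (rd_quot P ha ha h0).1, fun g hg => ⟨(rd_quot P ha hg h0).2.1, ?_⟩⟩, ?_⟩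
  · rw [(rd_quot P ha hg h0).2.2, e]
    exact h.2.2 _ (rs_mem P hg)
  · ext z
    simp only [Finset.mem_image]
    constructor
    · rintro ⟨g, hg, rfl⟩
      exact ⟨_, rs_mem P hg, by rw [(rd_quot P ha hg h0).2.2, e]⟩
    · rintro ⟨y, hy, rfl⟩
      obtain ⟨g, hg, rfl⟩ := of_rs P hy
      exact ⟨g, hg, by rw [(rd_quot P ha hg h0).2.2, e]⟩

theorem pnef_rs (P : Pl K) {s t s₀ : Finset K} (h : PNef s t s₀) (h0 : mx s₀ P = 0) :
    PNef (P.rs s) (P.rs t) (P.rs s₀) := by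
  intro F _ _ hF U ρ x y hρ hs hx hy
  obtain ⟨a, ha, ea⟩ := lst_cmp P hx ρ
  obtain ⟨b, hb, eb⟩ := lst_cmp P hy ρ
  have e : P.mz s₀ = 0 := by
    rw [mx_apply] at h0
    exact_mod_cast h0
  have k : ∀ z ∈ s₀, z ∈ On.cmpV P U ∧ ∃ c, ρ (P.rd z) = algebraMap ℂ F c := fun z hz => by
    have := hs _ (rs_mem P hz)
    rw [e, zpow_zero, mul_one] at this
    exact ⟨mem_cmp.2 ⟨mem_of_mz h0 hz, this.1⟩, this.2⟩
  have k' := h F hF (On.cmpV P U) (fun x => ρ (P.rd x)) a b (fg_cmp P hρ) k ha hb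
  beta_reduce at k'
  rw [ea, eb] at k'
  exact k'

theorem one_rs (P : Pl K) {s₀ : Finset K} (h : (1 : K) ∈ s₀) (h0 : mx s₀ P = 0) :
    (1 : P.κ) ∈ P.rs s₀ := by
  have e : P.mz s₀ = 0 := by
    rw [mx_apply] at h0
    exact_mod_cast h0
  have := rs_mem P h
  rwa [e, zpow_zero, mul_one, On.rd_one] at this

section curve

theorem I1_eq (β : BD K) : I1 β = I 1 K (Function.update ![0] 0 β) := by
  congr 1

theorem car1 (j : Fin 1) : (![0] : Fin 1 → BD K) j ∈ Car K := by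
  rw [Subsingleton.elim j 0]
  exact zero_mem _

variable (r : In.Row 1 K) {β γ : BD K}
include r

theorem I1_add (a : β ∈ Car K) (b : γ ∈ Car K) : I1 (β + γ) = I1 β + I1 γ := by
  simp only [I1_eq]
  exact r.ml.add _ _ _ _ car1 a b

theorem I1_smul (c : ℝ) (a : β ∈ Car K) : I1 (c • β) = c * I1 β := by
  simp only [I1_eq]
  exact r.ml.smul _ _ _ _ car1 a

theorem I1_sub (a : β ∈ Car K) (b : γ ∈ Car K) : I1 (β - γ) = I1 β - I1 γ := by
  rw [sub_eq_add_neg, I1_add r a (neg_mem b), ← neg_one_smul ℝ γ, I1_smul r _ b]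
  ring

theorem I1_prn (a : β ∈ Prn K) : I1 β = 0 :=
  r.prn _ 0 (fun j => by rw [Subsingleton.elim j 0]; exact Prn_le_Car a) a

open Classical in
theorem I1_quot {s : Finset K} (h : Nz s) {a : K} (a0 : a ≠ 0) :
    I1 (mx (s.image fun g => id (g / a))) = I1 (mx s) := by
  have e : (s.image fun g => id (g / a)) = s.image (· * a⁻¹) := by
    simp only [id, div_eq_mul_inv]
  rw [e, mx_image_mul h (inv_ne_zero a0),
    I1_sub r (mx_mem_Car s) (Prn_le_Car (dv_mem_Prn _)), I1_prn r (dv_mem_Prn _), sub_zero]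

end curve

end Ptc

open Ptc

/-- **PTC** -/
theorem ptc (h : In.Hy) : PTC := by
  intro n
  induction n with
  | zero =>
    intro K _ _ hK s t s₀ c p _ hs ht hn hc hp h0
    have r := h.row 1 K hK
    obtain ⟨a, ha, a0⟩ := id hs
    obtain ⟨b, hb, b0⟩ := id ht
    have k := hn K hK ⊤ id a b fg_top
      (fun y hy => ⟨trivial, const_of hK fun P => mem_of_mz (congrFun h0 P) hy⟩)
      ⟨ha, a0, fun _ _ => trivial⟩ ⟨hb, b0, fun _ _ => trivial⟩
    rw [I1_quot r hs a0, I1_quot r ht b0] at k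
    have m := sub_mem (mx_mem_Car s) (mx_mem_Car t)
    rw [I1_add r (Submodule.smul_mem _ c m) (Prn_le_Car hp), I1_smul r c m, I1_prn r hp,
      I1_sub r (mx_mem_Car s) (mx_mem_Car t), add_zero]
    exact mul_nonneg hc (sub_nonneg.2 k)
  | succ n ih =>
    intro K _ _ hK s t s₀ c p h1 hs ht hn hc hp P h0
    have m := sub_mem (mx_mem_Car s) (mx_mem_Car t)
    rw [h.add _ K hK P _ (Submodule.smul_mem _ c m) _ (Prn_le_Car hp), h.smul _ K hK P c _ m,
      h.res_sub hK P (mx_mem_Car s) (mx_mem_Car t), h.sys _ K hK, h.sys _ K hK, h.sys _ K hK]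
    exact ih P.κ (h.rsd _ K hK P) _ _ _ c _ (one_rs P h1 h0) (nz_rs P hs) (nz_rs P ht)
      (pnef_rs P hn h0) hc (h.res_prn hK P hp)

/-- **FORM** -/
theorem form : FORM := by
  intro n K _ _ hK ω hω
  have := hK.ess
  obtain ⟨y, δ, g, hy, g0, hv, -⟩ := P270L.S.exists_frame hK.trdeg ω hω
  have ex : ∃ (y : Fin n → K) (D : Fin n → Derivation ℂ K K), Fr y D := ⟨y, δ, hy⟩
  obtain ⟨D₀, h₀⟩ := ex.choose_spec
  have hc : cn K n = kap ex.choose := dif_pos ex
  have j0 := Cb.jac_ne hy h₀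
  refine ⟨g * jac D₀ y, mul_ne_zero g0 j0, fun P => ?_⟩
  obtain ⟨t, D, hA⟩ := Cb.exists_ad hK P
  have j1 := Cb.jac_ne hy hA.fr
  have j2 := Cb.jac_ne h₀ hA.fr
  refine ⟨P.ord (g * jac D y), ⟨⟨D, hA.pre, ?_, ?_⟩, ?_⟩, ?_⟩
  · change ω D ≠ 0
    rw [hv]
    exact mul_ne_zero g0 j1
  · change P.ord (ω D) = _
    rw [hv]
  · rintro m ⟨w, hw, w0, rfl⟩
    change ω w ≠ 0 at w0
    change _ ≤ P.ord (ω w)
    have e : ω w = jac w t * (g * jac D y) := by rw [hv, Cb.jac_chain hA.fr, mul_left_comm]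
    rw [e] at w0 ⊢
    rw [Pl.ord_mul _ (left_ne_zero_of_mul w0) (right_ne_zero_of_mul w0)]
    have : jac w t ∈ P.ring := Cb.det_mem _ fun i j => hw i _ (hA.mem j)
    have := Pl.ord_nonneg_of_mem _ this
    omega
  · rw [hc, Cb.kap_eq hA, Cb.jac_chain h₀ D y, mul_left_comm,
      Pl.ord_mul _ j2 (mul_ne_zero g0 j0)]
    push_cast
    rfl

end Vale.Agent.P283B.Br
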