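import Vale.Agent.P283B.BR.St
import Mathlib.AlgebraicGeometry.ValuativeCriterion

/-!
# P283B, block BR: the base, very ample and globally generated systems
-/

open Set CategoryTheory AlgebraicGeometry TopologicalSpace Filter

noncomputable section

namespace Vale.Agent.P283B.Br

open Lit Lit.QV
open P270L.S (loc Un Dom)
open P299.G (toK toK_injective)
open P289.H719 (germK)

namespace Sy

section general

variable {X : Scheme.{0}} [IsIntegral X]

theorem gen_mem {V : X.Opens} {x : X} (hx : x ∈ V) : genericPoint X ∈ V :=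
  ((genericPoint_spec X).specializes trivial).mem_open V.isOpen hx

theorem tk_germ (V : X.Opens) (hV : genericPoint X ∈ V) (x : X) (hx : x ∈ V) (a : Γ(X, V)) :
    toK x (X.presheaf.germ V x hx a) = germK V hV a := by
  have : Nonempty V := ⟨⟨x, hx⟩⟩
  exact P289.H594.toK_germ V x hx a

theorem germK_mem (V : X.Opens) (hV : genericPoint X ∈ V) {x : X} (hx : x ∈ V) (a : Γ(X, V)) :
    germK V hV a ∈ loc x := ⟨_, tk_germ V hV x hx a⟩

theorem un_germK (V : X.Opens) (hV : genericPoint X ∈ V) {x : X} (hx : x ∈ V) (a : Γ(X, V)) :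
    Un x (germK V hV a) ↔ x ∈ X.basicOpen a := by
  rw [← tk_germ V hV x hx, P270L.S.un_toK, Scheme.mem_basicOpen]

/-- a function which is regular on an open set is a section -/
theorem exists_sec (V : X.Opens) (hV : genericPoint X ∈ V) (u : X.functionField)
    (h : ∀ x ∈ V, u ∈ loc x) : ∃ s : Γ(X, V), germK V hV s = u := by
  have h1 : ∀ x : V, ∃ (U : X.Opens) (_ : x.1 ∈ U) (_ : U ≤ V) (s : Γ(X, U))
      (hU : genericPoint X ∈ U), germK U hU s = u := by
    intro x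
    obtain ⟨a, ha⟩ := h x.1 x.2
    obtain ⟨U, hU, s, hs⟩ := X.presheaf.exists_germ_eq a
    refine ⟨U ⊓ V, ⟨hU, x.2⟩, inf_le_right, X.presheaf.map (Opens.infLELeft U V).op s,
      ⟨gen_mem hU, hV⟩, ?_⟩
    rw [← ha, ← hs, tk_germ U (gen_mem hU)]
    exact X.presheaf.germ_res_apply (Opens.infLELeft U V) (genericPoint X) ⟨gen_mem hU, hV⟩ s
  choose U hU hle s hne hs using h1
  have hcomp : TopCat.Presheaf.IsCompatible X.sheaf.1 U s := by
    intro x y
    have hη : genericPoint X ∈ U x ⊓ U y := ⟨hne x, hne y⟩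
    have : Nonempty (U x ⊓ U y : X.Opens) := ⟨⟨_, hη⟩⟩
    apply X.germToFunctionField_injective (U x ⊓ U y)
    have e1 : X.germToFunctionField (U x ⊓ U y) (X.presheaf.map (Opens.infLELeft _ _).op (s x)) =
        germK (U x) (hne x) (s x) :=
      X.presheaf.germ_res_apply (Opens.infLELeft _ _) (genericPoint X) hη (s x)
    have e2 : X.germToFunctionField (U x ⊓ U y) (X.presheaf.map (Opens.infLERight _ _).op (s y)) =
        germK (U y) (hne y) (s y) :=
      X.presheaf.germ_res_apply (Opens.infLERight _ _) (genericPoint X) hη (s y)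
    exact e1.trans ((hs x).trans ((hs y).symm.trans e2.symm))
  obtain ⟨t, ht, -⟩ := X.sheaf.existsUnique_gluing' U V (fun x => homOfLE (hle x))
    (fun x hx => Opens.mem_iSup.2 ⟨⟨x, hx⟩, hU ⟨x, hx⟩⟩) s hcomp
  refine ⟨t, ?_⟩
  rw [← hs ⟨_, hV⟩, ← ht ⟨_, hV⟩]
  exact (X.presheaf.germ_res_apply (homOfLE (hle ⟨_, hV⟩)) (genericPoint X) (hne _) t).symm

theorem nu_add {p : X} {f g : X.functionField} (hf : f ∈ loc p) (hg : g ∈ loc p) (h1 : ¬ Un p f)
    (h2 : ¬ Un p g) : ¬ Un p (f + g) := by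
  obtain ⟨a, rfl⟩ := hf
  obtain ⟨b, rfl⟩ := hg
  rw [← map_add]
  rw [P270L.S.un_toK] at *
  exact IsLocalRing.nonunits_add h1 h2

theorem nu_mul {p : X} {f g : X.functionField} (hf : f ∈ loc p) (hg : g ∈ loc p) (h : ¬ Un p f) :
    ¬ Un p (f * g) := fun h1 => h (P270L.S.un_of_mul hf hg h1)

/-- the valuative criterion -/
theorem exists_centre {Z : Scheme.{0}} (f : X ⟶ Z) [UniversallyClosed f] {U : Z.Opens}
    (hU : IsAffineOpen U) (hη : genericPoint X ∈ f ⁻¹ᵁ U) (W : ValuationSubring X.functionField)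
    (hW : ∀ a : Γ(Z, U), germK _ hη (f.app U a) ∈ W) : ∃ x ∈ f ⁻¹ᵁ U, Dom W x := by
  have hex : ValuativeCriterion.Existence f := by
    have h1 : UniversallyClosed f := inferInstance
    rw [UniversallyClosed.eq_valuativeCriterion] at h1
    exact h1.1
  let ψ : Γ(Z, U) →+* W := ((germK _ hη).comp (f.app U).hom).codRestrict W.toSubring hW
  let j : CommRingCat.of W ⟶ CommRingCat.of X.functionField :=
    CommRingCat.ofHom (algebraMap W X.functionField)
  let i₁ : Spec (CommRingCat.of X.functionField) ⟶ X := X.fromSpecStalk (genericPoint X)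
  let i₂ : Spec (CommRingCat.of W) ⟶ Z := Spec.map (CommRingCat.ofHom ψ) ≫ hU.fromSpec
  have hsq : i₁ ≫ f = Spec.map j ≫ i₂ := by
    have h1 := Scheme.SpecMap_stalkMap_fromSpecStalk f (x := genericPoint X)
    have hη' : f (genericPoint X) ∈ U := hη
    have h0 : Z.fromSpecStalk (f (genericPoint X)) =
        Spec.map (Z.presheaf.germ U (f (genericPoint X)) hη') ≫ hU.fromSpec :=
      (hU.fromSpecStalk_eq_fromSpecStalk hη').symm
    rw [h0, ← Category.assoc, ← Spec.map_comp, Scheme.Hom.germ_stalkMap] at h1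
    refine h1.symm.trans ?_
    simp only [i₂]
    rw [← Category.assoc, ← Spec.map_comp]
    rfl
  let S : ValuativeCommSq f :=
    { R := W
      K := X.functionField
      i₁ := i₁
      i₂ := i₂
      commSq := ⟨hsq⟩ }
  have hl : ∃ l : Spec (CommRingCat.of W) ⟶ X, Spec.map j ≫ l = i₁ ∧ l ≫ f = i₂ := by
    obtain ⟨⟨⟨l, hl1, hl2⟩⟩⟩ := hex S
    exact ⟨l, hl1, hl2⟩
  obtain ⟨l, hl1, hl2⟩ := hl
  have h1 : Spec.map (Scheme.stalkClosedPointTo l) ≫
      X.fromSpecStalk (l (IsLocalRing.closedPoint W)) = l :=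
    Scheme.Spec_stalkClosedPointTo_fromSpecStalk l
  have h2 : Spec.map (X.presheaf.stalkSpecializes ((genericPoint_spec X).specializes
      (Set.mem_univ (l (IsLocalRing.closedPoint W))))) ≫
      X.fromSpecStalk (l (IsLocalRing.closedPoint W)) = i₁ :=
    Scheme.SpecMap_stalkSpecializes_fromSpecStalk _
  rw [← h2] at hl1
  have h3 : Spec.map (Scheme.stalkClosedPointTo l ≫ j) ≫
      X.fromSpecStalk (l (IsLocalRing.closedPoint W)) =
      Spec.map (X.presheaf.stalkSpecializes ((genericPoint_spec X).specializes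
      (Set.mem_univ (l (IsLocalRing.closedPoint W))))) ≫
      X.fromSpecStalk (l (IsLocalRing.closedPoint W)) := by
    rw [Spec.map_comp, Category.assoc, h1]
    exact hl1
  have h4 := Spec.map_injective ((cancel_mono _).1 h3)
  refine ⟨l (IsLocalRing.closedPoint W), ?_, fun a => ?_⟩
  · have e : ∀ p, f (l p) ∈ U := fun p => by
      rw [← Scheme.Hom.comp_apply, hl2, ← SetLike.mem_coe, ← hU.range_fromSpec]
      exact ⟨_, (Scheme.Hom.comp_apply _ _ _).symm⟩
    exact e _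
  · have h5 := congrArg (fun f => f.hom a) h4
    change (algebraMap W X.functionField ((Scheme.stalkClosedPointTo l).hom a)) = toK _ a at h5
    rw [← h5]
    refine ⟨((Scheme.stalkClosedPointTo l).hom a).2, fun hu => ?_⟩
    exact ValuationSubring.coe_mem_nonunits_iff.2 fun h6 =>
      hu ((isUnit_map_iff (Scheme.stalkClosedPointTo l).hom a).1 h6)

end general

variable {X Z : QV}

theorem un_const (h : SBAS) (x : X.X) {c : ℂ} (hc : c ≠ 0) : Un x (algebraMap ℂ X.K c) :=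
  ⟨(map_ne_zero _).2 hc, h.con X x c, by rw [← map_inv₀]; exact h.con X x _⟩

theorem adjoin_le (h : SBAS) {s : Set X.K} {x : X.X} (hs : ∀ g ∈ s, g ∈ loc x) {g : X.K}
    (hg : g ∈ Algebra.adjoin ℂ s) : g ∈ loc x :=
  Algebra.adjoin_le (S := { loc x with algebraMap_mem' := h.con X x }) hs hg

/-- the ring of an affine open set of the base -/
theorem exists_gens (f : Contraction X Z) {U : Z.X.Opens} (hU : IsAffineOpen U)
    (hη : genericPoint X.X ∈ f.f ⁻¹ᵁ U) : ∃ s₀ : Finset X.K, 1 ∈ s₀ ∧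
      ∀ g, g ∈ Algebra.adjoin ℂ (s₀ : Set X.K) ↔ ∃ a : Γ(Z.X, U), germK _ hη (f.f.app U a) = g := by
  classical
  have h1 := Z.str.finiteType_appLE (isAffineOpen_top _) hU (V := U) le_top
  let c : ℂ →+* Γ(Z.X, U) :=
    (Z.str.appLE ⊤ U le_top).hom.comp (Scheme.ΓSpecIso (CommRingCat.of ℂ)).inv.hom
  have h2 : c.FiniteType := h1.comp (RingHom.FiniteType.of_surjective _
    (Scheme.ΓSpecIso (CommRingCat.of ℂ)).symm.commRingCatIsoToRingEquiv.surjective)
  let _ : Algebra ℂ Γ(Z.X, U) := c.toAlgebra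
  have h3 : Algebra.FiniteType ℂ Γ(Z.X, U) := h2
  obtain ⟨t, ht⟩ := h3.out
  have h4 : Z.str.appLE ⊤ U le_top ≫ f.f.app U ≫ X.X.presheaf.germ _ _ hη =
      X.str.appTop ≫ X.X.presheaf.germ ⊤ (genericPoint X.X) trivial := by
    have k : ∀ (φ : X.X ⟶ Spec (CommRingCat.of ℂ)) (_ : φ = X.str) (e : f.f ⁻¹ᵁ U ≤ φ ⁻¹ᵁ ⊤),
        φ.appLE ⊤ _ e ≫ X.X.presheaf.germ _ _ hη =
          X.str.appTop ≫ X.X.presheaf.germ ⊤ (genericPoint X.X) trivial := by
      rintro _ rfl e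
      exact (Category.assoc _ _ _).trans (congrArg _ (X.X.presheaf.germ_res (homOfLE e) _ hη))
    rw [Scheme.Hom.app_eq_appLE]
    exact (Scheme.Hom.appLE_comp_appLE_assoc _ _ _ _ _ _ _ _).trans (k _ f.over _)
  let ψ : Γ(Z.X, U) →ₐ[ℂ] X.K :=
    { (germK _ hη).comp (f.f.app U).hom with
      commutes' := fun a =>
        congrArg (fun φ => φ.hom ((Scheme.ΓSpecIso (CommRingCat.of ℂ)).inv.hom a)) h4 }
  refine ⟨insert 1 (t.image ψ), Finset.mem_insert_self _ _, fun g => ?_⟩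
  rw [Finset.coe_insert, Algebra.adjoin_insert_one, Finset.coe_image, Algebra.adjoin_image, ht,
    Algebra.map_top]
  rfl

/-! ### orders -/

theorem ord_mul' {g g' : X.K} (hg : g ≠ 0) (hg' : g' ≠ 0) (y : X.PrimeDiv) :
    ord (g * g') y = ord g y + ord g' y := Scheme.ord_mul hg hg'

theorem ord_one' (y : X.PrimeDiv) : ord (1 : X.K) y = 0 := by
  have := ord_mul' (X := X) one_ne_zero one_ne_zero y
  rw [one_mul] at this
  linarith

theorem ord_pow' {g : X.K} (hg : g ≠ 0) (n : ℕ) (y : X.PrimeDiv) : ord (g ^ n) y = n * ord g y := by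
  induction n with
  | zero => rw [pow_zero, ord_one']; simp
  | succ n ih => rw [pow_succ, ord_mul' (pow_ne_zero n hg) hg, ih]; push_cast; ring

theorem ord_div' {g g' : X.K} (hg : g ≠ 0) (hg' : g' ≠ 0) (y : X.PrimeDiv) :
    ord (g / g') y = ord g y - ord g' y := by
  have := ord_mul' (div_ne_zero hg hg') hg' y
  rw [div_mul_cancel₀ _ hg'] at this
  linarith

theorem ord_nonneg {g : X.K} {y : X.PrimeDiv} (hg : g ∈ loc y.1) : 0 ≤ ord g y := by
  obtain ⟨a, rfl⟩ := hg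
  exact P299.G.ord_toK_nonneg a

theorem ord_un {g : X.K} {y : X.PrimeDiv} (hg : Un y.1 g) : ord g y = 0 := by
  obtain ⟨a, rfl⟩ := hg.2.1
  exact P299.G.ord_toK_of_isUnit (P270L.S.un_toK.1 hg)

theorem prime_eq {y y' : X.PrimeDiv} (h : y'.1 ⤳ y.1) : y' = y := by
  by_contra hne
  have hlt : y.1 < y'.1 := by
    refine lt_of_le_not_ge (show y.1 ≤ y'.1 from h) fun h' => hne ?_
    exact Subtype.ext (h.antisymm (show y.1 ⤳ y'.1 from h')).eq
  have h2 := Order.coheight_add_one_le hlt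
  rw [show Order.coheight y.1 = 1 from y.2, show Order.coheight y'.1 = 1 from y'.2] at h2
  exact absurd h2 (by decide)

theorem un_of_ord (h : SBAS) {g : X.K} {y : X.PrimeDiv} (h0 : g ≠ 0) (hg : ord g y = 0) :
    Un y.1 g := by
  refine ⟨h0, h.hart X g _ fun y' hy' => ?_, h.hart X _ _ fun y' hy' => ?_⟩
  · rw [prime_eq hy', hg]
  · rw [prime_eq hy', ← one_div, ord_div' one_ne_zero h0, hg, ord_one']; rfl

/-- the coefficient of `div g + m D` -/
def cf (D : X.QDiv) (m : ℕ) (g : X.K) (y : X.PrimeDiv) : ℚ := (ord g y : ℚ) + m * D y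

theorem cf_fin (h : SBAS) (D : X.QDiv) (m : ℕ) (g : X.K) : {y | cf D m g y ≠ 0}.Finite := by
  refine ((h.fin X g).union D.hasFiniteSupport).subset fun y hy => ?_
  by_contra h1
  simp only [mem_union, not_or, Function.mem_support, not_not, mem_ofPred_eq] at h1
  exact hy (by rw [cf, h1.1, h1.2]; simp)

theorem cf_pow {D : X.QDiv} {m : ℕ} {g : X.K} (hg : g ≠ 0) (n : ℕ) (y : X.PrimeDiv) :
    cf D (n * m) (g ^ n) y = n * cf D m g y := by
  rw [cf, cf, ord_pow' hg]; push_cast; ring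

theorem generates_prime {D : X.QDiv} {m : ℕ} {g : X.K} (hg : g ≠ 0) {y : X.PrimeDiv}
    (h : cf D m g y = 0) : Generates D m g y.1 :=
  ⟨hg, fun y' hy' => by rw [prime_eq hy']; exact h⟩

theorem isOpen_generates (h : SBAS) (D : X.QDiv) (m : ℕ) {g : X.K} (hg : g ≠ 0) :
    IsOpen {x : X.X | Generates D m g x} := by
  have : {x : X.X | Generates D m g x} = ⋂ y ∈ {y | cf D m g y ≠ 0}, (closure {y.1})ᶜ := by
    ext x
    simp only [mem_iInter, mem_compl_iff, ← specializes_iff_mem_closure]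
    exact ⟨fun h1 y hy h2 => hy (h1.2 y h2), fun h1 => ⟨hg, fun y hy => by
      by_contra h2
      exact h1 y h2 hy⟩⟩
  rw [this]
  exact (cf_fin h D m g).isOpen_biInter fun _ _ => isClosed_closure.isOpen_compl

/-- finitely many poles are cancelled by a large power -/
theorem pole {ι : Type} {S : Set ι} {a c : ι → ℚ} (ha : {y | a y ≠ 0}.Finite)
    (hc : ∀ y ∈ S, 0 ≤ c y) (h : ∀ y ∈ S, c y = 0 → 0 ≤ a y) :
    ∀ᶠ r : ℕ in atTop, ∀ y ∈ S, 0 ≤ a y + r * c y := by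
  have h1 : ∀ᶠ r : ℕ in atTop, ∀ y ∈ {y | a y ≠ 0}, y ∈ S → 0 ≤ a y + r * c y := by
    refine (eventually_all_finite ha).2 fun y _ => ?_
    by_cases hy : y ∈ S
    · rcases (hc y hy).eq_or_lt with h2 | h2
      · exact Eventually.of_forall fun r _ => by rw [← h2, mul_zero, add_zero]; exact h y hy h2.symm
      · filter_upwards [(tendsto_natCast_atTop_atTop (R := ℚ)).eventually_ge_atTop (-a y / c y)]
          with r hr _
        rw [div_le_iff₀ h2] at hr
        linarith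
    · exact Eventually.of_forall fun r h2 => absurd h2 hy
  filter_upwards [h1] with r hr y hy
  by_cases h2 : a y = 0
  · rw [h2, zero_add]; exact mul_nonneg (Nat.cast_nonneg r) (hc y hy)
  · exact hr y h2 hy

/-- `W` is the affine open set where the section `g` of `O(n A)` over `V` does not vanish -/
structure Ch (A : X.QDiv) (n : ℕ) (V : X.X.Opens) (g : X.K) (W : X.X.Opens) : Prop where
  sec : IsSectionOn A n V g
  aff : IsAffineOpen W
  gen : genericPoint X.X ∈ W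
  mem : ∀ p, p ∈ W ↔ p ∈ V ∧ Generates A n g p

theorem Ch.pow {A : X.QDiv} {n : ℕ} {V W : X.X.Opens} {g : X.K} (h : Ch A n V g W) {k : ℕ}
    (hk : 0 < k) : Ch A (k * n) V (g ^ k) W := by
  have h0 := h.sec.1
  refine ⟨⟨pow_ne_zero k h0, fun y hy => ?_⟩, h.aff, h.gen, fun p => ?_⟩
  · exact le_of_le_of_eq (mul_nonneg (Nat.cast_nonneg k) (h.sec.2 y hy)) (cf_pow h0 k y).symm
  · rw [h.mem]
    refine and_congr_right fun _ => ⟨fun h1 => ⟨pow_ne_zero k h0, fun y hy => ?_⟩,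
      fun h1 => ⟨h0, fun y hy => ?_⟩⟩
    · exact (cf_pow h0 k y).trans (mul_eq_zero_of_right _ (h1.2 y hy))
    · exact (mul_eq_zero.1 ((cf_pow h0 k y).symm.trans (h1.2 y hy))).resolve_left
        (Nat.cast_ne_zero.2 hk.ne')

theorem Ch.pole {A : X.QDiv} {n : ℕ} {V W : X.X.Opens} {g : X.K} (h : Ch A n V g W)
    {a : X.PrimeDiv → ℚ} (ha : {y | a y ≠ 0}.Finite) (h0 : ∀ y : X.PrimeDiv, y.1 ∈ W → 0 ≤ a y) :
    ∀ᶠ r : ℕ in atTop, ∀ y : X.PrimeDiv, y.1 ∈ V → 0 ≤ a y + r * cf A n g y :=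
  Sy.pole (S := {y : X.PrimeDiv | y.1 ∈ V}) ha h.sec.2 fun y hy h1 =>
    h0 y ((h.mem _).2 ⟨hy, generates_prime h.sec.1 h1⟩)

theorem finite_cover (h : SBAS) (V : X.X.Opens) (O : {x // x ∈ V} → Set X.X)
    (hO : ∀ x, IsOpen (O x)) (hx : ∀ x, x.1 ∈ O x) :
    ∃ T : Finset {x // x ∈ V}, ∀ p ∈ V, ∃ x ∈ T, p ∈ O x := by
  have := h.noeth X
  obtain ⟨T, hT⟩ := (NoetherianSpace.isCompact (V : Set X.X)).elim_finite_subcover O hO
    fun p hp => mem_iUnion.2 ⟨⟨p, hp⟩, hx _⟩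
  refine ⟨T, fun p hp => ?_⟩
  obtain ⟨x, hx, h1⟩ := mem_iUnion₂.1 (hT hp)
  exact ⟨x, hx, h1⟩

/-- finitely many charts, with sections of the same degree -/
theorem cover (h : SBAS) {f : Contraction X Z} {U : Z.X.Opens} {A : X.QDiv} (hU : IsAffineOpen U)
    (hA : IsAmpleOver f A) : ∃ (n : ℕ) (ι : Type) (_ : Fintype ι) (g : ι → X.K)
      (W : ι → X.X.Opens), 0 < n ∧ (∀ j, Ch A n (f.f ⁻¹ᵁ U) (g j) (W j)) ∧
        ∀ p ∈ f.f ⁻¹ᵁ U, ∃ j, p ∈ W j := by
  obtain ⟨m, hm, -, H⟩ := hA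
  choose k g W hk h1 h2 h3 h4 using fun x : (f.f ⁻¹ᵁ U : X.X.Opens) => H U hU x.1 x.2
  obtain ⟨T, hT⟩ := finite_cover h _ (fun x => W x) (fun x => (W x).isOpen) h3
  have hN : 0 < ∏ x ∈ T, k x := Finset.prod_pos fun x _ => hk x
  choose e he using fun j : T => Finset.dvd_prod_of_mem k j.2
  refine ⟨(∏ x ∈ T, k x) * m, T, inferInstance, fun j => g j.1 ^ e j, fun j => W j.1,
    Nat.mul_pos hN hm, fun j => ?_, fun p hp => ?_⟩
  · have h5 : 0 < e j := Nat.pos_of_mul_pos_left (he j ▸ hN)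
    rw [he j, mul_comm (k j.1), mul_assoc]
    exact Ch.pow ⟨h1 j.1, h2 j.1, gen_mem (h3 j.1), h4 j.1⟩ h5
  · obtain ⟨x, hx, hp'⟩ := hT p hp
    exact ⟨⟨x, hx⟩, hp'⟩

/-- a section over an affine open set which generates at a given point -/
theorem exists_local (h : SBAS) {D : X.QDiv} {m : ℕ} {W : X.X.Opens} (hW : IsAffineOpen W) {x : X.X}
    (hx : x ∈ W) {g : X.K} (hg : Generates D m g x) :
    ∃ u, IsSectionOn D m W u ∧ Generates D m u x := by
  obtain ⟨b, hb1, hb2⟩ := hW.exists_basicOpen_le (V := ⟨_, isOpen_generates h D m hg.1⟩) ⟨x, hg⟩ hx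
  have hη := gen_mem hx
  have hu := (un_germK W hη hx b).2 hb2
  obtain ⟨r, hr⟩ := (pole (S := {y : X.PrimeDiv | y.1 ∈ W}) (cf_fin h D m g)
    (c := fun y => (ord (germK W hη b) y : ℚ))
    (fun y hy => Int.cast_nonneg (ord_nonneg (germK_mem W hη hy b))) fun y hy h1 =>
      ((hb1 ((un_germK W hη hy b).1 (un_of_ord h hu.1 (Int.cast_eq_zero.1 h1)))).2 y
        specializes_rfl).ge).exists
  have e : ∀ y, cf D m (g * germK W hη b ^ r) y = cf D m g y + r * ord (germK W hη b) y := by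
    intro y
    rw [cf, cf, ord_mul' hg.1 (pow_ne_zero r hu.1), ord_pow' hu.1]; push_cast; ring
  refine ⟨g * germK W hη b ^ r, ⟨mul_ne_zero hg.1 (pow_ne_zero r hu.1), fun y hy =>
    le_of_le_of_eq (hr y hy) (e y).symm⟩, mul_ne_zero hg.1 (pow_ne_zero r hu.1), fun y hy => ?_⟩
  refine (e y).trans ?_
  rw [ord_un (hu.mono hy), show cf D m g y = 0 from hg.2 y hy]
  simp

end Sy

open Sy in
theorem sbase (h : SBAS) : SBASE := by
  intro X Z f z
  obtain ⟨_, ⟨U, hU, rfl⟩, hz, -⟩ :=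
    Z.X.isBasis_affineOpens.exists_subset_of_mem_open (mem_univ z) isOpen_univ
  have hsur := f.surjective.surj
  obtain ⟨x₀, hx₀⟩ := hsur z
  have hη : genericPoint X.X ∈ f.f ⁻¹ᵁ U := gen_mem (x := x₀) (by
    change f.f x₀ ∈ U
    rwa [hx₀])
  obtain ⟨s₀, h1, hs⟩ := exists_gens f hU hη
  have hgen : ∀ g, g ∈ Algebra.adjoin ℂ (s₀ : Set X.K) ↔ ∀ x ∈ f.f ⁻¹ᵁ U, g ∈ loc x := by
    intro g
    rw [hs]
    refine ⟨fun ⟨a, ha⟩ x hx => ha ▸ germK_mem _ hη hx _, fun hg => ?_⟩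
    obtain ⟨b, hb⟩ := exists_sec _ hη g hg
    have := f.stein U
    obtain ⟨a, rfl⟩ := (asIso (f.f.app U)).commRingCatIsoToRingEquiv.surjective b
    exact ⟨a, hb⟩
  have hun : ∀ x ∈ f.f ⁻¹ᵁ U, ∀ a : Γ(Z.X, U),
      Un x (germK _ hη (f.f.app U a)) ↔ f.f x ∈ Z.X.basicOpen a := by
    intro x hx a
    rw [un_germK _ hη hx, ← Scheme.preimage_basicOpen]
    rfl
  have hspec : ∀ x ∈ f.f ⁻¹ᵁ U, ∀ x' ∈ f.f ⁻¹ᵁ U,
      (f.f x ⤳ f.f x' ↔ ∀ g ∈ Algebra.adjoin ℂ (s₀ : Set X.K), Un x' g → Un x g) := by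
    intro x hx x' hx'
    constructor
    · intro hsp g hg hu
      obtain ⟨a, rfl⟩ := (hs g).1 hg
      exact (hun x hx a).2 (hsp.mem_open (Z.X.basicOpen a).isOpen ((hun x' hx' a).1 hu))
    · intro H
      refine specializes_iff_forall_open.2 fun O hO hxO => ?_
      obtain ⟨a, ha, hxa⟩ := hU.exists_basicOpen_le (V := ⟨O, hO⟩) ⟨_, hxO⟩ hx'
      exact ha ((hun x hx a).1 (H _ ((hs _).2 ⟨a, rfl⟩) ((hun x' hx' a).2 hxa)))
  refine ⟨U, s₀, hz, hU, h1, hgen, fun W hc hW => ?_, hspec, fun x hx hc => ?_⟩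
  · obtain ⟨n, i, hi, hf⟩ := f.projective
    have : UniversallyClosed f.f := by rw [← hf]; infer_instance
    exact exists_centre f.f hU hη W fun a => Algebra.adjoin_le
      (S := { W.toSubring with algebraMap_mem' := hc }) hW ((hs _).2 ⟨a, rfl⟩)
  · have hJ : JacobsonSpace Z.X := LocallyOfFiniteType.jacobsonSpace Z.str
    have key : ∀ g ∈ Algebra.adjoin ℂ (s₀ : Set X.K), ∃ c, ¬ Un x (g - algebraMap ℂ X.K c) := by
      intro g hg
      induction hg using Algebra.adjoin_induction with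
      | mem y hy => exact hc y hy
      | algebraMap c => exact ⟨c, fun h2 => h2.1 (sub_self _)⟩
      | add a b ha hb h2 h3 =>
        obtain ⟨c, h2⟩ := h2
        obtain ⟨d, h3⟩ := h3
        refine ⟨c + d, ?_⟩
        rw [map_add, add_sub_add_comm]
        exact nu_add (sub_mem ((hgen a).1 ha x hx) (h.con X x c))
          (sub_mem ((hgen b).1 hb x hx) (h.con X x d)) h2 h3
      | mul a b ha hb h2 h3 =>
        obtain ⟨c, h2⟩ := h2
        obtain ⟨d, h3⟩ := h3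
        have k1 := sub_mem ((hgen a).1 ha x hx) (h.con X x c)
        have k2 := sub_mem ((hgen b).1 hb x hx) (h.con X x d)
        refine ⟨c * d, ?_⟩
        rw [map_mul, show a * b - algebraMap ℂ X.K c * algebraMap ℂ X.K d =
          (a - algebraMap ℂ X.K c) * b + (b - algebraMap ℂ X.K d) * algebraMap ℂ X.K c by ring]
        exact nu_add (mul_mem k1 ((hgen b).1 hb x hx)) (mul_mem k2 (h.con X x c))
          (nu_mul k1 ((hgen b).1 hb x hx) h2) (nu_mul k2 (h.con X x c) h3)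
    refine isClosed_singleton_of_isLocallyClosed_singleton
      ⟨U, closure {f.f x}, U.isOpen, isClosed_closure, ?_⟩
    refine Subset.antisymm (singleton_subset_iff.2 ⟨hx, subset_closure rfl⟩) ?_
    rintro q ⟨hq, hq'⟩
    obtain ⟨x', rfl⟩ := hsur q
    have h2 : f.f x ⤳ f.f x' := specializes_iff_mem_closure.2 hq'
    refine (((hspec x' hq x hx).2 fun g hg hu => ?_).antisymm h2).eq
    obtain ⟨c, h3⟩ := key g hg
    have h4 : c ≠ 0 := by
      rintro rfl
      rw [map_zero, sub_zero] at h3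
      exact h3 hu
    have h5 := sub_mem hg (Subalgebra.algebraMap_mem _ c)
    by_contra h6
    have h7 := nu_add ((hgen _).1 h5 x' hq) ((hgen _).1 (neg_mem hg) x' hq)
      (fun h8 => h3 ((hspec x hx x' hq).1 h2 _ h5 h8)) (fun h8 => h6 (by
        have h9 := h8.mul (un_const h x' (neg_ne_zero.2 one_ne_zero))
        simpa using h9))
    refine h7 ?_
    rw [show g - algebraMap ℂ X.K c + -g = algebraMap ℂ X.K (-c) by rw [map_neg]; ring]
    exact un_const h x' (neg_ne_zero.2 h4)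

open Sy in
theorem sva (h : SBAS) : SVA := by
  classical
  intro X Z f U A hU hA
  obtain ⟨n, ι, _, g, W, hn, hC, hcov⟩ := cover h hU hA
  choose t ht1 ht2 using fun j => h.chart X (W j) (hC j).aff (hC j).gen
  have h1 : ∀ᶠ r : ℕ in atTop, ∀ j, ∀ a ∈ insert 1 (t j), ∀ y : X.PrimeDiv, y.1 ∈ f.f ⁻¹ᵁ U →
      0 ≤ (ord a y : ℚ) + r * cf A n (g j) y := by
    refine eventually_all.2 fun j => (eventually_all_finset _).2 fun a ha => (hC j).pole
      ((h.fin X a).subset fun y hy => Int.cast_ne_zero.1 hy) fun y hy => ?_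
    refine Int.cast_nonneg (ord_nonneg ?_)
    rcases Finset.mem_insert.1 ha with rfl | ha
    · exact one_mem _
    · exact (ht1 j a).1 (Algebra.subset_adjoin ha) _ hy
  obtain ⟨r, hr, hr0⟩ := (h1.and (eventually_gt_atTop 0)).exists
  set s : Finset X.K := Finset.univ.biUnion fun j =>
    ((insert 1 (t j)).filter (· ≠ 0)).image (· * g j ^ r) with hs
  have hmem : ∀ j, ∀ a ∈ insert 1 (t j), a ≠ 0 → a * g j ^ r ∈ s := fun j a ha h0 =>
    Finset.mem_biUnion.2 ⟨j, Finset.mem_univ _,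
      Finset.mem_image_of_mem _ (Finset.mem_filter.2 ⟨ha, h0⟩)⟩
  have hmem1 : ∀ j, g j ^ r ∈ s := fun j => by
    simpa using hmem j 1 (Finset.mem_insert_self _ _) one_ne_zero
  have hsec : ∀ u ∈ s, IsSectionOn A (r * n) (f.f ⁻¹ᵁ U) u := by
    intro u hu
    obtain ⟨j, -, hu⟩ := Finset.mem_biUnion.1 hu
    obtain ⟨a, ha, rfl⟩ := Finset.mem_image.1 hu
    obtain ⟨ha, h0⟩ := Finset.mem_filter.1 ha
    have h2 := (hC j).sec.1
    refine ⟨mul_ne_zero h0 (pow_ne_zero r h2), fun y hy => le_of_le_of_eq (hr j a ha y hy) ?_⟩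
    rw [cf, ord_mul' h0 (pow_ne_zero r h2), ord_pow' h2]; push_cast; ring
  have hgen : ∀ j, ∀ x ∈ W j, Generates A (r * n) (g j ^ r) x := fun j x hx =>
    ((((hC j).pow hr0).mem x).1 hx).2
  refine ⟨r * n, s, Nat.mul_pos hr0 hn, ⟨hsec, fun x hx => ?_⟩, fun x hx => ?_⟩
  · obtain ⟨j, hj⟩ := hcov x hx
    exact ⟨_, hmem1 j, hgen j x hj⟩
  · obtain ⟨j, hj⟩ := hcov x hx
    have h2 := hgen j x hj
    have h3 : Algebra.adjoin ℂ (t j : Set X.K) ≤
        Algebra.adjoin ℂ ((· / g j ^ r) '' (s : Set X.K)) := by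
      refine Algebra.adjoin_le fun a ha => ?_
      by_cases h0 : a = 0
      · rw [h0]; exact zero_mem _
      · exact Algebra.subset_adjoin ⟨_, hmem j a (Finset.mem_insert_of_mem ha) h0,
          mul_div_cancel_right₀ a h2.1⟩
    refine ⟨_, hmem1 j, h2.1, fun a ha => adjoin_le h ?_ ha, fun u hu => ?_⟩
    · rintro _ ⟨u, hu, rfl⟩
      refine h.hart X _ x fun y hy => ?_
      have h4 := (hsec u hu).2 y (hy.mem_open (f.f ⁻¹ᵁ U).isOpen hx)
      have h5 := h2.2 y hy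
      rw [ord_div' (hsec u hu).1 h2.1, ← Int.cast_nonneg_iff (R := ℚ)]
      push_cast
      linarith
    · obtain ⟨b, hb1, hb2, hb3⟩ := (ht2 j x hj).2 u hu
      exact ⟨b, h3 hb1, hb2, h3 hb3⟩

open Sy in
theorem sgg (h : SBAS) : SGG := by
  classical
  intro X Z f U A D m hU hA hm hD
  obtain ⟨n, ι, _, g, W, hn, hC, hcov⟩ := cover h hU hA
  choose j hj using fun x : (f.f ⁻¹ᵁ U : X.X.Opens) => hcov x.1 x.2
  choose u hu1 hu2 using fun x : (f.f ⁻¹ᵁ U : X.X.Opens) =>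
    exists_local h (hC (j x)).aff (hj x) (hD x.1 trivial).choose_spec
  obtain ⟨T, hT⟩ := finite_cover h _ (fun x => W (j x) ∩ {p | Generates D m (u x) p})
    (fun x => (W (j x)).isOpen.inter (isOpen_generates h D m (hu1 x).1)) fun x => ⟨hj x, hu2 x⟩
  have h1 : ∀ᶠ r : ℕ in atTop, ∀ x ∈ T, ∀ y : X.PrimeDiv, y.1 ∈ f.f ⁻¹ᵁ U →
      0 ≤ n * cf D m (u x) y + r * cf A n (g (j x)) y :=
    (eventually_all_finset _).2 fun x _ => (hC (j x)).pole
      ((cf_fin h D m (u x)).subset fun y hy => right_ne_zero_of_mul hy) fun y hy =>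
        mul_nonneg (Nat.cast_nonneg n) ((hu1 x).2 y hy)
  obtain ⟨k, hk⟩ := ((tendsto_id.const_mul_atTop' hm).eventually h1).exists
  simp only [id] at hk
  have e1 : ∀ x y, cf (D + k • A) (n * m) (u x ^ n * g (j x) ^ (m * k)) y =
      n * cf D m (u x) y + (m * k : ℕ) * cf A n (g (j x)) y := by
    intro x y
    have h2 := (hu1 x).1
    have h3 := (hC (j x)).sec.1
    rw [cf, cf, cf, ord_mul' (pow_ne_zero _ h2) (pow_ne_zero _ h3), ord_pow' h2, ord_pow' h3,
      Finsupp.add_apply, Finsupp.smul_apply, nsmul_eq_mul]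
    push_cast; ring
  have e2 : ∀ i y, cf (k • A) (n * m) (g i ^ (m * k)) y = (m * k : ℕ) * cf A n (g i) y := by
    intro i y
    rw [cf, cf, ord_pow' (hC i).sec.1, Finsupp.smul_apply, nsmul_eq_mul]
    push_cast; ring
  have h0 : ∀ x, u x ^ n * g (j x) ^ (m * k) ≠ 0 := fun x =>
    mul_ne_zero (pow_ne_zero _ (hu1 x).1) (pow_ne_zero _ (hC (j x)).sec.1)
  refine ⟨n * m, k, T.image fun x => u x ^ n * g (j x) ^ (m * k),
    Finset.univ.image fun i => g i ^ (m * k), Nat.mul_pos hn hm, ⟨?_, fun p hp => ?_⟩, ?_,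
    fun p hp => ?_⟩
  · intro v hv
    obtain ⟨x, hx, rfl⟩ := Finset.mem_image.1 hv
    exact ⟨h0 x, fun y hy => le_of_le_of_eq (hk x hx y hy) (e1 x y).symm⟩
  · obtain ⟨x, hx, h2, h3⟩ := hT p hp
    refine ⟨_, Finset.mem_image_of_mem _ hx, h0 x, fun y hy => (e1 x y).trans ?_⟩
    rw [show cf D m (u x) y = 0 from h3.2 y hy,
      show cf A n (g (j x)) y = 0 from (((hC (j x)).mem p).1 h2).2.2 y hy]
    simp
  · intro v hv
    obtain ⟨i, -, rfl⟩ := Finset.mem_image.1 hv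
    exact ⟨pow_ne_zero _ (hC i).sec.1, fun y hy => le_of_le_of_eq
      (mul_nonneg (Nat.cast_nonneg _) ((hC i).sec.2 y hy)) (e2 i y).symm⟩
  · obtain ⟨i, hi⟩ := hcov p hp
    refine ⟨_, Finset.mem_image_of_mem _ (Finset.mem_univ i), pow_ne_zero _ (hC i).sec.1,
      fun y hy => (e2 i y).trans ?_⟩
    rw [show cf A n (g i) y = 0 from (((hC i).mem p).1 hi).2.2 y hy, mul_zero]

end Vale.Agent.P283B.Br
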