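import Vale.Agent.P283B.BR.Nef
import Vale.Agent.P283B.BR.Sys
import Vale.Agent.P283B.BR.Ptc
import Vale.Agent.P287D.On.Cen
import Vale.Agent.P287D.Pr.Lr

/-!
# P283B, block BR: the literal statement from the local statement
-/

set_option linter.all false

open Set CategoryTheory AlgebraicGeometry TopologicalSpace Order IsLocalRing Pointwise

noncomputable section

namespace Vale.Agent.P283B.Br

open P287D Lit Lit.QV P299.G P289 P289.H219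
open P270L.S (loc Un Dom un_toK toK_mem mem_loc_gen loc_mono)

section bd

variable {K : Type} [Field K] [Algebra ℂ K] {s₀ : Finset K} {P : Pl K}

theorem fn_iff (h : 1 ∈ s₀) : Fn s₀ P ↔ ∀ y ∈ s₀, y ∈ P.ring := by
  refine ⟨fun k y hy => ?_, fun k => ?_⟩
  · by_cases y0 : y = 0
    · exact y0 ▸ zero_mem _
    have := P.le_mz hy y0
    rw [show P.mz s₀ = 0 from Int.cast_eq_zero.1 (show ((P.mz s₀ : ℤ) : ℝ) = 0 from k)] at this
    exact (P.ord_nonneg_iff y0).1 (by omega)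
  · have := P.mz_eq h one_ne_zero fun g hg _ => P.ord_one ▸ P.ord_nonneg_of_mem (k g hg)
    simp [Fn, mx, this]

theorem fn_ch (h : 1 ∈ s₀) : Fn s₀ P ↔ On.Ch (mx s₀) 1 P :=
  ⟨fun k => ⟨one_ne_zero, sec_of_mem h, by simpa [Fn] using k⟩,
    fun k => by simpa [Fn] using k.eq⟩

theorem fo_uniq {d : ℕ} {ω : DForm ℂ K d} {O O' : K → Prop} {v v' : K → ℤ} {r r' : ℤ}
    (h : IsFormOrder ω O v r) (h' : IsFormOrder ω O' v' r') (e : ∀ g, O g ↔ O' g)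
    (e' : ∀ g, v g = v' g) : r = r' := by
  obtain rfl : O = O' := funext fun g => propext (e g)
  obtain rfl : v = v' := funext e'
  exact h.unique h'

end bd

variable {X Z : QV} {f : Contraction X Z} {U : Z.X.Opens} {s₀ s u : Finset X.K} {P R : Pl X.K}
  {x x' : X.X} {n : ℕ} {W : X.X.Opens}

theorem Base.fn (h : Base f U s₀) (hx : x ∈ f.f ⁻¹ᵁ U) (hP : Dom P.ring x) : Fn s₀ P :=
  (fn_iff h.one).2 fun y hy => hP.mem ((h.gen y).1 (Algebra.subset_adjoin hy) x hx)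

theorem Base.cen (h : Base f U s₀) (hP : Fn s₀ P) : ∃ x ∈ f.f ⁻¹ᵁ U, Dom P.ring x :=
  h.ctr P.ring P.con ((fn_iff h.one).1 hP)

theorem Base.af (h : Base f U s₀) (b : X.K) :
    b ∈ On.Af (mx s₀) 1 ↔ b ∈ Algebra.adjoin ℂ (s₀ : Set X.K) := by
  refine ⟨fun hb => (h.gen b).2 fun x hx => hart fun y hy => ?_,
    fun hb => On.Bf_le one_ne_zero (by simpa [On.Bf] using hb)⟩
  obtain ⟨Q, hQ⟩ := pl y
  exact hQ.2 b ▸ Q.ord_nonneg_of_mem (((fn_ch h.one).1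
    (h.fn (hy.mem_open (f.f ⁻¹ᵁ U).2 hx) hQ.dom)).mem b hb)

theorem pos_iff {b : X.K} (hP : Dom P.ring x) (hb : b ∈ loc x) (b0 : b ≠ 0) :
    0 < P.ord b ↔ ¬ Un x b :=
  ⟨fun a k => a.ne' (Dom.ord hP k), fun a => lt_of_le_of_ne (P.ord_nonneg_of_mem (hP.mem hb))
    fun k => a ((dom_iff.1 hP b hb).2 b0 k.symm)⟩

theorem Base.ov_fn (h : Base f U s₀) (hR : Fn s₀ R) (e : Ov s₀ R P) : Fn s₀ P :=
  (fn_ch h.one).2 (((fn_ch h.one).1 hR).of_cle e)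

theorem Base.ov (h : Base f U s₀) (hx : x ∈ f.f ⁻¹ᵁ U) (hx' : x' ∈ f.f ⁻¹ᵁ U) (hP : Dom P.ring x)
    (hR : Dom R.ring x') : Ov s₀ R P ↔ f.f x ⤳ f.f x' := by
  obtain ⟨n, hn⟩ := exists_dim X
  rw [h.spec x hx x' hx', Ov, On.cle_iff (ff hn) (carQ_mx _) ((fn_ch h.one).1 (h.fn hx' hR)),
    and_iff_right ((fn_ch h.one).1 (h.fn hx hP))]
  refine forall_congr' fun b => ?_
  rw [h.af]
  refine forall_congr' fun hb => ?_
  by_cases b0 : b = 0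
  · simp [b0, Un]
  rw [pos_iff hP ((h.gen b).1 hb x hx) b0, pos_iff hR ((h.gen b).1 hb x' hx') b0, not_imp_not]

/-- the system has no base point on `W` -/
def Fre (u : Finset X.K) (W : X.X.Opens) : Prop :=
  ∀ x ∈ W, ∃ g ∈ u, g ≠ 0 ∧ ∀ h ∈ u, h / g ∈ loc x

theorem Gen.fre {D : X.QDiv} {m : ℕ} (h : Gen s D m W) : Fre s W := fun x hx =>
  let ⟨g, a, b⟩ := h.gen x hx
  ⟨g, a, b.1, fun k hk => sec_div (h.sec k hk) hx b⟩

theorem Fre.mul [DecidableEq X.K] (h : Fre s W) (h' : Fre u W) : Fre (s * u) W := fun x hx => by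
  obtain ⟨a, a1, a2, a3⟩ := h x hx
  obtain ⟨b, b1, b2, b3⟩ := h' x hx
  refine ⟨_, Finset.mul_mem_mul a1 b1, mul_ne_zero a2 b2, fun _ hk => ?_⟩
  obtain ⟨c, c1, d, d1, rfl⟩ := Finset.mem_mul.1 hk
  rw [mul_div_mul_comm]
  exact mul_mem (a3 c c1) (b3 d d1)

theorem Fre.pl (h : Fre u W) (hd : X.dim = (n + 1 : ℕ)) (hx : x ∈ W) (hP : Dom P.ring x)
    (o : On n (mx u) P) : ∃ h, IsPl ⟨x, h⟩ P := by
  obtain ⟨g, g1, g2, g3⟩ := h x hx
  have hK := ff hd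
  have b := (res'.on n _ hK _ P (smp_mx u)).1 o
  rw [res'.sys n _ hK, big_mx_iff (Gm.ff_κ P hK),
    On.rts_rs g1 (On.ch_of g1 g2 fun k hk => hP.mem (g3 k hk))] at b
  have hB : ∀ a ∈ On.Bf u g, a ∈ loc x := fun a ha => by
    induction ha using Algebra.adjoin_induction with
    | mem _ hy => obtain ⟨k, hk, rfl⟩ := hy; exact g3 k hk
    | algebraMap c => exact con x c
    | add _ _ _ _ a b => exact add_mem a b
    | mul _ _ _ _ a b => exact mul_mem a b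
  have : Algebra.IsAlgebraic (Algebra.adjoin ℂ (P.rd '' (On.Bf u g : Set X.K))) P.κ :=
    IntermediateField.isAlgebraic_adjoin_iff_top.1 ⟨b⟩
  obtain ⟨t, t1, t2⟩ := exists_isTranscendenceBasis_subset (R := ℂ)
    (P.rd '' (On.Bf u g : Set X.K))
  obtain ⟨e⟩ := Cardinal.eq.1 (show Cardinal.mk (Fin n) = Cardinal.mk t by
    rw [t2.cardinalMk_eq_trdeg, Gm.trdeg_κ P hK, Cardinal.mk_fin])
  choose y y1 y2 using fun i => t1 (e i).2
  exact cod hd hP (fun i => hB _ (y1 i)) (by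
    simpa only [y2, Function.comp_def] using t2.1.comp e e.injective)

theorem Emb.big (h : Emb s W) (hx : x ∈ W) : Big (mx s) := big_mx fun a => by
  obtain ⟨g, g1, -, -, g3⟩ := h _ (gen_mem hx)
  obtain ⟨b, b1, b2, b3⟩ := g3 a (mem_loc_gen a)
  have k : Algebra.adjoin ℂ ((· / g) '' (s : Set X.K)) ≤ (rts s).toSubalgebra :=
    Algebra.adjoin_le (by rintro _ ⟨k, hk, rfl⟩; exact div_mem_rts hk g1)
  rw [← mul_div_cancel_left₀ a b2.1]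
  exact isAlgebraic_algebraMap (⟨_, div_mem (k b3) (k b1)⟩ : rts s)

theorem exists_ne (hd : X.dim = (n + 1 : ℕ)) : ∃ x : X.X, x ≠ genericPoint X.X := by
  by_contra k
  push Not at k
  have : Subsingleton X.X := ⟨fun a b => (k a).trans (k b).symm⟩
  have : Subsingleton (IrreducibleCloseds X.X) := ⟨fun a b => IrreducibleCloseds.ext
    ((a.isIrreducible.1.eq_univ).trans (b.isIrreducible.1.eq_univ).symm)⟩
  have h := (P289W.dim_iff X.str (n + 1)).1 hd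
  have h2 : topologicalKrullDim X.X ≤ 0 := krullDim_nonpos_of_subsingleton
  rw [h] at h2
  exact absurd h2 (by norm_cast)

theorem exists_over (hd : X.dim = (n + 1 : ℕ)) (f : Contraction X Z) {z : Z.X}
    (hz : IsClosed ({z} : Set Z.X)) : ∃ (R : Pl X.K) (x : X.X), Dom R.ring x ∧ f.f x = z := by
  obtain ⟨x, h1, h2⟩ : ∃ x, x ≠ genericPoint X.X ∧ f.f x = z := by
    obtain ⟨x, rfl⟩ := f.surjective.1 z
    by_cases k : x = genericPoint X.X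
    · obtain ⟨x', h⟩ := exists_ne hd
      exact ⟨x', h, ((k ▸ genericPoint_specializes x').map f.f.continuous).mem_closed hz rfl⟩
    · exact ⟨x, k, rfl⟩
  exact let ⟨R, h⟩ := exists_pl h1; ⟨R, x, h, h2⟩

section pair

variable {ω : X.Form (n + 1)} {κ B : X.QDiv} {φ : X.K} {Γ : BD X.K}

/-- `φ dy = ω` -/
def Tw (ω : X.Form (n + 1)) (φ : X.K) : Prop :=
  ∀ P : Pl X.K, ∃ r : ℤ, IsFormOrder ω (fun g => g ∈ P.ring) (fun g => P.ord g) r ∧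
    (r : ℝ) = cn X.K (n + 1) P + P.ord φ

/-- over `W`, `Γ + dv φ` is the pull back of `D` -/
def Pull (D : X.QDiv) (φ : X.K) (W : X.X.Opens) (Γ : BD X.K) : Prop :=
  ∀ P : Pl X.K, ∀ x ∈ W, Dom P.ring x → ∀ (m : ℕ) (g : X.K), 0 < m → Generates D m g x →
    Γ P + P.ord φ = P.ord g⁻¹ / m

theorem pull_of {D : X.QDiv} (h : ∀ P : Pl X.K, ∀ x ∈ W, Dom P.ring x → ∃ (m : ℕ) (g : X.K),
    0 < m ∧ Generates D m g x ∧ m * (Γ P + P.ord φ) = -P.ord g) : Pull D φ W Γ :=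
  fun P x hx hP m g m0 hg => by
    obtain ⟨k, a, k0, ha, e⟩ := h P x hx hP
    have := congrArg (Int.cast : ℤ → ℝ) (gn_ord hP hg ha)
    have k1 : (k : ℝ) ≠ 0 := Nat.cast_ne_zero.2 k0.ne'
    push_cast at this
    rw [eq_div_iff (Nat.cast_ne_zero.2 m0.ne'), P.ord_inv, ← mul_right_inj' k1, ← mul_assoc, e]
    push_cast
    linarith

theorem ld_model (t : Tw ω φ) {D : X.QDiv} (p : Pull D φ W Γ) {M : Model X} {E : M.Y.PrimeDiv}
    (hE : M.π E.1 ∈ W) (hP : Dom P.ring (M.π E.1)) (i : IsMp M E P) {a : ℚ}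
    (h : IsLogDiscrepancy ω D M E a) : (a : ℝ) = ld (n + 1) Γ P := by
  obtain ⟨r, m, g, h1, h2, h3, rfl⟩ := h
  obtain ⟨r', k1, k2⟩ := t P
  obtain rfl := fo_uniq k1 h1 i.1 i.2
  have := p P _ hE hP m g h2 h3
  rw [ld, dsc, Pi.sub_apply, ← i.2]
  push_cast
  linarith

theorem ld_of_pair (hz : SZAR) (t : Tw ω φ) {q : ℚ → Prop} (h : IsPairOn q ω κ B ⊤)
    (p : Pull (κ + B) φ W Γ) (hx : x ∈ W) (hP : Dom P.ring x) :
    ∃ a : ℚ, q a ∧ (a : ℝ) = ld (n + 1) Γ P := by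
  obtain ⟨M, E, rfl, i⟩ := hz X P x hP
  obtain ⟨m, m0, c⟩ := h.cartier
  obtain ⟨g, hg⟩ := c (M.π E.1) trivial
  obtain ⟨r, k1, -⟩ := t P
  have : IsLogDiscrepancy ω (κ + B) M E _ := ⟨r, m, g, by
    rwa [← funext fun g => propext (i.1 g), ← funext i.2], m0, hg, rfl⟩
  exact ⟨_, h.disc M E _ trivial this, ld_model t p hx hP i this⟩

theorem prime_spec {y y' : X.PrimeDiv} (h : y'.1 ⤳ y.1) : y' = y := Sy.prime_eq h

theorem pull_prime {D : X.QDiv} (p : Pull D φ W Γ) {m : ℕ} (m0 : 0 < m) (c : IsCartierOn D m ⊤)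
    {y : X.PrimeDiv} (hy : y.1 ∈ W) (i : IsPl y P) : Γ P + P.ord φ = D y := by
  obtain ⟨g, hg⟩ := c y.1 trivial
  have := congrArg (Rat.cast : ℚ → ℝ) (hg.2 y specializes_rfl)
  rw [p P _ hy i.dom m g m0 hg, P.ord_inv, i.2, div_eq_iff (Nat.cast_ne_zero.2 m0.ne')]
  push_cast at this ⊢
  linarith

theorem can_prime (hκ : IsCanonical ω κ) (t : Tw ω φ) {y : X.PrimeDiv} (i : IsPl y P) :
    cn X.K (n + 1) P + P.ord φ = κ y := by
  obtain ⟨r, h1, h2⟩ := hκ.divisor y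
  obtain ⟨r', k1, k2⟩ := t P
  rw [h2, ← k2, fo_uniq k1 h1 i.1 i.2, Rat.cast_intCast]

theorem dsc_prime (hκ : IsCanonical ω κ) (t : Tw ω φ) {q : ℚ → Prop} (h : IsPairOn q ω κ B ⊤)
    (p : Pull (κ + B) φ W Γ) {y : X.PrimeDiv} (hy : y.1 ∈ W) (i : IsPl y P) :
    dsc (n + 1) Γ P = -B y := by
  obtain ⟨m, m0, c⟩ := h.cartier
  have h1 := pull_prime p m0 c hy i
  have h2 := can_prime hκ t i
  rw [Finsupp.add_apply, Rat.cast_add] at h1
  rw [dsc, Pi.sub_apply]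
  linarith

/-- the way back -/
theorem back (hm : SMOD) (hκ : IsCanonical ω κ) (t : Tw ω φ) (φ0 : φ ≠ 0) {q : ℚ → Prop}
    (h : IsPairOn q ω κ B ⊤) (b : Base f U s₀) (p : Pull (κ + B) φ (f.f ⁻¹ᵁ U) Γ)
    (hx : x ∈ f.f ⁻¹ᵁ U) (hR : Dom R.ring x) {N : ℕ} (N0 : 0 < N) {g : X.K}
    (k : KlC n N Γ (Ov s₀ R) g) : ∃ Λ, IsKltComplement f ω κ B (f.f x) N Λ := by
  classical
  have hK := ff hκ.dim
  have N1 : (0 : ℝ) < N := Nat.cast_pos.2 N0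
  have N2 : (N : ℚ) ≠ 0 := Nat.cast_ne_zero.2 N0.ne'
  have g0 : g * φ ^ N ≠ 0 := mul_ne_zero k.1.1 (pow_ne_zero N φ0)
  let Λ : X.QDiv := Finsupp.ofSupportFinite (fun y => (ord (g * φ ^ N) y : ℚ) / N)
    ((fin_ord (g * φ ^ N)).subset fun y hy e => hy (by simp [e])) - κ
  have hΛ : ∀ y, (N : ℚ) * (κ + Λ) y = ord (g * φ ^ N) y := fun y => by
    rw [add_sub_cancel]
    exact mul_div_cancel₀ _ N2
  have hg : ∀ x, Generates (κ + Λ) N (g * φ ^ N)⁻¹ x := fun x =>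
    ⟨inv_ne_zero g0, fun y _ => by rw [hΛ, qord_inv]; simp⟩
  have hp : Pull (κ + Λ) φ ⊤ ((N : ℝ)⁻¹ • dv g) := pull_of fun P x _ _ => ⟨N, _, N0, hg x, by
    rw [P.ord_inv, P.ord_mul k.1.1 (pow_ne_zero N φ0), P.ord_pow, mul_add, Pi.smul_apply,
      smul_eq_mul, mul_inv_cancel_left₀ N1.ne', dv]
    push_cast
    ring⟩
  obtain ⟨T, hT⟩ := Pr.fin_chk hK (toFinite {(N : ℝ)⁻¹ • dv g, mx s₀}) (forall_mem_insert.2
    ⟨Submodule.smul_mem _ _ (dv_mem_Car g), forall_eq.2 (mx_mem_Car _)⟩)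
  let S : Set X.X := {p | p ∈ f.f ⁻¹ᵁ U ∧ ((∃ y : X.PrimeDiv, y.1 = p ∧ Λ y < B y) ∨
    ∃ P ∈ T, Dom P.ring p ∧ dsc (n + 1) ((N : ℝ)⁻¹ • dv g) P + 1 ≤ 0)}
  have hS : S.Finite := by
    refine (((Λ.support.finite_toSet.union B.support.finite_toSet).image Subtype.val).union
      (T.finite_toSet.biUnion (t := fun P => {p | Dom P.ring p}) fun P _ =>
        Subsingleton.finite fun a ha b hb => dom_uniq ha hb)).subset ?_
    rintro _ ⟨-, ⟨y, rfl, hy⟩ | ⟨P, h1, h2, -⟩⟩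
    · refine .inl ⟨y, by_contra fun e => ?_, rfl⟩
      have e' := not_or.1 e
      exact hy.ne ((Finsupp.notMem_support_iff.1 e'.1).trans
        (Finsupp.notMem_support_iff.1 e'.2).symm)
    · exact .inr (mem_biUnion h1 h2)
  have hS' : ∀ p ∈ S, ¬ f.f p ⤳ f.f x := by
    rintro _ ⟨h0, ⟨y, rfl, hy⟩ | ⟨P, -, h2, h3⟩⟩ e
    · obtain ⟨P, i⟩ := pl y
      obtain ⟨m, m0, c⟩ := h.cartier
      have h1 := k.1.2 P ((b.ov h0 hx i.dom hR).2 e)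
      have h2 := pull_prime p m0 c h0 i
      have h3 := congrArg (Rat.cast : ℚ → ℝ) (hΛ y)
      have h4 : (Λ y : ℝ) < B y := Rat.cast_lt.2 hy
      rw [← i.2, P.ord_mul k.1.1 (pow_ne_zero N φ0), P.ord_pow] at h3
      rw [Finsupp.add_apply] at h2 h3
      push_cast at h2 h3
      nlinarith
    · have h1 := k.2 P ((b.ov h0 hx h2 hR).2 e)
      rw [dsc, Pi.sub_apply, Pi.smul_apply, smul_eq_mul, dv] at h3
      rw [← inv_mul_lt_iff₀ N1] at h1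
      linarith
  let U' : Z.X.Opens := U ⊓ ⟨(⋃ p ∈ S, closure {f.f p})ᶜ,
    (hS.isClosed_biUnion fun _ _ => isClosed_closure).isOpen_compl⟩
  have hU : ∀ z, z ∈ U' ↔ z ∈ U ∧ ∀ p ∈ S, ¬ f.f p ⤳ z := fun z => and_congr_right fun _ => by
    simp [specializes_iff_mem_closure]
  have le : ∀ y : X.PrimeDiv, y.1 ∈ f.f ⁻¹ᵁ U' → B y ≤ Λ y := fun y hy => not_lt.1 fun e =>
    ((hU _).1 hy).2 y.1 ⟨hy.1, .inl ⟨y, rfl, e⟩⟩ specializes_rfl
  refine ⟨Λ, U', (hU _).2 ⟨hx, hS'⟩, le, ⟨fun y hy => (h.effective y trivial).trans (le y hy),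
    ⟨N, N0, fun x _ => ⟨_, hg x⟩⟩, fun M E a hE ha => ?_⟩, _, g0, fun y _ => hΛ y⟩
  obtain ⟨Q, h1, i⟩ := hm X M E
  have e := ld_model t hp trivial h1 i ha
  by_contra z
  obtain ⟨P, p1, p2, p3⟩ := (hT _ (Submodule.subset_span (.inl rfl)) Q 0 le_rfl).1 one_pos
    (e.symm.trans_le (by exact_mod_cast not_lt.1 z))
  have o : Ov s₀ Q P := p3 _ (Submodule.subset_span (.inr rfl))
  obtain ⟨y, y1, y2⟩ := b.cen (b.ov_fn (b.fn hE.1 h1) o)
  exact ((hU _).1 hE).2 y ⟨y1, .inr ⟨P, p1, y2, p2⟩⟩ ((b.ov y1 hE.1 y2 h1).1 o)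

end pair

/-- the class `c` of points is translated to the class `C` -/
def Cmp (c : ∀ Z : QV, Pt Z.X → Prop) (C : Bs) : Prop :=
  ∀ (X Z : QV) (f : Contraction X Z) (U : Z.X.Opens) (s₀ : Finset X.K) (z : Z.X) (P : Pl X.K)
    (x : X.X), Base f U s₀ → c Z z → z ∈ U → Dom P.ring x → f.f x ⤳ z → C X.K s₀ P

theorem main (hz : SZAR) (hm : SMOD) {c : ∀ Z : QV, Pt Z.X → Prop} {C : Bs} (hC : Cmp c C)
    (h : ∀ n, Q1L C n) : Q1For c := by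
  classical
  intro d ε R hd ε0 _
  obtain ⟨n, rfl⟩ := Nat.exists_eq_add_of_le' hd
  obtain ⟨N, N0, hN⟩ := h n ε (∏ r ∈ R, r.den) ε0 (Finset.prod_pos fun r _ => r.den_pos)
  refine ⟨N, N0, ?_⟩
  rintro X Z f ω κ B z hκ hB hR ⟨C₀, hC₀, hA⟩ hD hz' hc
  have hK := ff hκ.dim
  obtain ⟨φ, φ0, t⟩ := form _ _ hK ω hκ.nonzero
  obtain ⟨U, s₀, zU, b⟩ := sbase sbas X Z f z
  obtain ⟨R₀, x, hx, rfl⟩ := exists_over hκ.dim f hz'
  obtain ⟨m₁, s₁, m1, g1, e1⟩ := sva sbas X Z f U _ b.aff hA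
  obtain ⟨m', m0', c'⟩ := id hD
  obtain ⟨m, k, s, u, m0, gs, gu⟩ := sgg sbas X Z f U _ _ m' b.aff hA m0' c'.1
  have n1 := g1.nz zU
  have ns := gs.nz zU
  have nu := gu.nz zU
  have n0 : Nz s₀ := ⟨1, b.one, one_ne_zero⟩
  let Γ : BD X.K := -((m : ℝ)⁻¹ • (mx s - mx u) + dv φ)
  let Γ₀ : BD X.K := -((m₁ : ℝ)⁻¹ • mx s₁ + dv φ)
  have p : Pull (κ + B) φ (f.f ⁻¹ᵁ U) Γ := pull_of fun P y hy hP => by
    obtain ⟨a, -, a2⟩ := gs.gen y hy
    obtain ⟨a', -, a3⟩ := gu.gen y hy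
    refine ⟨m, _, m0, by simpa only [neg_neg] using gn_neg (gn_div a2 a3), ?_⟩
    have : (m : ℝ) ≠ 0 := Nat.cast_ne_zero.2 m0.ne'
    simp only [Γ, Pi.neg_apply, Pi.add_apply, Pi.smul_apply, Pi.sub_apply, mx, dv, gs.mz hP hy a2,
      gu.mz hP hy a3, P.ord_inv, P.ord_div a2.1 a3.1, smul_eq_mul]
    push_cast
    field_simp
    ring
  have p₀ : Pull (κ + C₀) φ (f.f ⁻¹ᵁ U) Γ₀ := pull_of fun P y hy hP => by
    obtain ⟨a, -, a2⟩ := g1.gen y hy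
    refine ⟨m₁, _, m1, by simpa only [neg_neg] using gn_neg a2, ?_⟩
    have : (m₁ : ℝ) ≠ 0 := Nat.cast_ne_zero.2 m1.ne'
    simp only [Γ₀, Pi.neg_apply, Pi.add_apply, Pi.smul_apply, mx, dv, g1.mz hP hy a2, P.ord_inv,
      smul_eq_mul]
    push_cast
    field_simp
    ring
  have e : mx (s₁ * s * u * s₀) = mx s₁ + mx s + mx u + mx s₀ := by
    rw [mx_mul ((n1.mul ns).mul nu) n0, mx_mul (n1.mul ns) nu, mx_mul n1 ns]
  have fr : Fre (s₁ * s * u * s₀) (f.f ⁻¹ᵁ U) := ((g1.fre.mul gs.fre).mul gu.fre).mul fun y hy =>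
    ⟨1, b.one, one_ne_zero, fun a ha => by
      simpa using (b.gen a).1 (Algebra.subset_adjoin ha) y hy⟩
  have on : ∀ P, On n (mx (s₁ * s * u * s₀)) P → Fn s₀ P →
      ∃ y : X.PrimeDiv, y.1 ∈ f.f ⁻¹ᵁ U ∧ IsPl y P := fun P o hP =>
    let ⟨y, y1, y2⟩ := b.cen hP
    let ⟨a, i⟩ := fr.pl hκ.dim y1 y2 o
    ⟨⟨y, a⟩, y1, i⟩
  have d1 : Dsc (mx (s₁ * s * u * s₀)) (mx s₁) := e ▸ (((Dsc.refl (smp_mx _)).add_left
    (smp_mx _)).add_left (smp_mx _)).add_left (smp_mx _)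
  have ds : Dsc (mx (s₁ * s * u * s₀)) (mx s) := e ▸ ((Dsc.add_self (smp_mx _)
    (smp_mx _)).add_left (smp_mx _)).add_left (smp_mx _)
  have du : Dsc (mx (s₁ * s * u * s₀)) (mx u) := e ▸ (Dsc.add_self ((smp_mx _).add (smp_mx _))
    (smp_mx _)).add_left (smp_mx _)
  have d0 : Dsc (mx (s₁ * s * u * s₀)) (mx s₀) := e ▸ Dsc.add_self (((smp_mx _).add
    (smp_mx _)).add (smp_mx _)) (smp_mx _)
  have q : ∀ (a : ℕ) {β : BD X.K}, CarQ β → CarQ (-((a : ℝ)⁻¹ • β + dv φ)) := fun a β hβ =>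
    (CarQ.add (by simpa using hβ.qsmul (a : ℚ)⁻¹) (carQ_dv φ)).neg
  have l : LRel n (mx (s₁ * s * u * s₀)) s₀ Γ := by
    refine ⟨b.one, smp_mx _, d1.big (e1.big zU), d0,
      (((ds.sub du).smul _).add_prn (dv_mem_Prn φ)).neg, q m ((carQ_mx s).sub (carQ_mx u)),
      fun P o hP => ?_, ?_, Γ₀, 0, q m₁ (carQ_mx _), ((d1.smul _).add_prn (dv_mem_Prn φ)).neg,
      ?_, ?_, fun P hP => ?_, fun P o hP => ?_⟩
    · obtain ⟨y, y1, i⟩ := on P o hP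
      rw [dsc_prime hκ t hB p y1 i, neg_nonpos]
      exact_mod_cast hB.effective y trivial
    · rw [neg_neg]
      exact ptc In.hy n _ hK s u s₀ _ _ b.one ns nu (snef X Z f U s₀ s u _ _ m b hD m0 gs gu)
        (inv_nonneg.2 m.cast_nonneg) (dv_mem_Prn φ)
    · rw [neg_neg]
      exact ((smp_mx _).smul (inv_nonneg.2 m₁.cast_nonneg)).add (smp_dv φ)
    · rw [zero_smul, zero_sub, neg_neg]
      exact ((e1.big zU).smul (inv_pos.2 (Nat.cast_pos.2 m1))).add_eff (smp_dv φ).eff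
    · obtain ⟨y, y1, y2⟩ := b.cen hP
      obtain ⟨a, a1, a2⟩ := ld_of_pair hz t hC₀ p₀ y1 y2
      have : (0 : ℝ) < a := by exact_mod_cast a1
      rw [a2, ld] at this
      linarith
    · obtain ⟨y, y1, i⟩ := on P o hP
      rw [dsc_prime hκ t hC₀ p₀ y1 i, neg_nonpos]
      exact_mod_cast hC₀.effective y trivial
  have f0 := b.fn zU hx
  obtain ⟨g, hg⟩ := hN X.K hK _ Γ s₀ R₀ l f0 (fun P o => by
      obtain ⟨y, y1, y2⟩ := b.cen (b.ov_fn f0 o)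
      exact hC X Z f U s₀ _ P y b hc zU y2 ((b.ov y1 zU y2 hx).1 o))
    (fun P o o' => by
      obtain ⟨y, y1, i⟩ := on P o (b.ov_fn f0 o')
      rw [ld, dsc_prime hκ t hB p y1 i]
      by_cases z : B y = 0
      · exact ⟨0, by simp [z]⟩
      obtain ⟨j, hj⟩ := Finset.dvd_prod_of_mem (fun r : ℚ => r.den) (hR y z)
      have j0 : (j : ℝ) ≠ 0 := Nat.cast_ne_zero.2 fun e =>
        (Finset.prod_pos fun (r : ℚ) _ => r.den_pos).ne' (by rw [hj, e, mul_zero])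
      refine ⟨(B y).num * j, ?_⟩
      rw [hj, Rat.cast_def]
      push_cast
      rw [mul_div_mul_right _ _ j0]
      ring)
    fun P o => by
      obtain ⟨y, y1, y2⟩ := b.cen (b.ov_fn f0 o)
      obtain ⟨a, a1, a2⟩ := ld_of_pair hz t hB p y1 y2
      exact a2 ▸ a1
  exact back hm hκ t φ0 hB b p zU hx N0 hg

end Vale.Agent.P283B.Br
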