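import Vale.Agent.P283B.BR.SmDf

/-!
# P283B: the class of points of bounded multiplicity of the base
-/

open Set

noncomputable section

namespace Vale.Agent.P283B

open P287D

variable {K : Type} [Field K] [Algebra ℂ K]

/-- the elements which are integral over the ring generated by `y` -/
def Icl {ι : Type} (y : ι → K) : Subalgebra ℂ K :=
  (integralClosure (Algebra.adjoin ℂ (range y)) K).restrictScalars ℂ

/-- `O` is the local ring, at the centre of `P`, of a finite chart over the affine space with the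
coordinates `y`; at most `c` sheets pass through the point -/
structure Fc (c : ℕ) (O : Subalgebra ℂ K) (P : Pl K) {ι : Type} (y : ι → K) : Prop where
  ind : AlgebraicIndependent ℂ y
  fin : Module.Finite (Algebra.adjoin ℂ (range y)) (integralClosure (Algebra.adjoin ℂ (range y)) K)
  mem : ∀ a ∈ Icl y, a ∈ P.ring
  loc : ∀ h, h ∈ O ↔ ∃ a ∈ Icl y, ∃ b ∈ Icl y, b ≠ 0 ∧ P.ord b = 0 ∧ h = a / b
  cnt : ∀ (Ω : Type) [Field Ω] [Algebra ℂ Ω] (V : ValuationSubring Ω) (ξ₀ : Icl y →ₐ[ℂ] Ω)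
    (T : Finset (Icl y →ₐ[ℂ] Ω)),
    (∀ a, ξ₀ a ∈ V ∧ (ξ₀ a ∈ V.nonunits → a = 0 ∨ 0 < P.ord a)) →
    (∀ ξ ∈ T, ∀ a : Icl y, ((a : K) ∈ range y → ξ a = ξ₀ a) ∧ ξ a - ξ₀ a ∈ V.nonunits) → T.card ≤ c

/-- the points of the base of multiplicity at most `c` -/
def Mlt (c : ℕ) : Bs := fun K _ _ s P => ∃ (e : ℕ) (y : Fin e → K), Fc c (Oz s P) P y

end Vale.Agent.P283B
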