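import Vale.Agent.P283B.BR.Gn
import Vale.Agent.P270L.S6Deg
import Vale.Agent.P287D.Cv.Deg

/-!
# P283B, block BR: nef divisors
-/

set_option linter.all false

open Set CategoryTheory AlgebraicGeometry TopologicalSpace Order IsLocalRing

noncomputable section

namespace Vale.Agent.P283B.Br

open P287D Lit Lit.QV P299.G P289 P289.H219
open P270L.S (loc Un Dom un_toK toK_mem mem_loc_gen loc_mono rs rs_toK rs_loc rp mem_rp
  dom_of_le len_formula exists_conductor mapDomain_rp finite_ext)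
open P297 (Place PlaceOver IsFF)

theorem toK_gen {Y : Scheme.{0}} [IsIntegral Y] (g : Y.functionField) :
    toK (genericPoint Y) g = g :=
  congrArg (fun φ => φ.hom g) (Y.presheaf.stalkSpecializes_refl (genericPoint Y))

/-- the valuative criterion over an affine open set -/
theorem ctr_of_uc {Y Z : Scheme.{0}} [IsIntegral Y] (g : Y ⟶ Z) [hg : UniversallyClosed g]
    {U : Z.Opens} (hU : IsAffineOpen U) (hη : g (genericPoint Y) ∈ U)
    (W : ValuationSubring Y.functionField)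
    (h : ∀ a : Γ(Z, U), toK _ (g.stalkMap (genericPoint Y) (Z.presheaf.germ U _ hη a)) ∈ W) :
    ∃ y, g y ∈ U ∧ Dom W y := by
  let φ : Γ(Z, U) ⟶ .of W := CommRingCat.ofHom
    ((Z.presheaf.germ U _ hη ≫ g.stalkMap _ ≫ P289W.tk _).hom.codRestrict W h)
  have e : P289W.gp Y ≫ g = Spec.map (CommRingCat.ofHom (algebraMap W Y.functionField)) ≫
      Spec.map φ ≫ hU.fromSpec := by
    rw [P289W.gp, Category.assoc, ← Scheme.SpecMap_stalkMap_fromSpecStalk,
      ← hU.fromSpecStalk_eq_fromSpecStalk hη, IsAffineOpen.fromSpecStalk,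
      ← Spec.map_comp_assoc, ← Spec.map_comp_assoc, ← Spec.map_comp_assoc]
    rfl
  rw [UniversallyClosed.eq_valuativeCriterion] at hg
  obtain ⟨l, l1, l2⟩ := (hg.1
    { R := W, K := Y.functionField, i₁ := _, i₂ := _, commSq := ⟨e⟩ }).exists_lift
  refine ⟨_, ?_, dom_of_lift l l1⟩
  change (l ≫ g) _ ∈ (U : Set Z)
  rw [show l ≫ g = _ from l2, ← hU.range_fromSpec]
  exact ⟨_, rfl⟩

instance {X Z : QV} (f : Contraction X Z) : IsProper f.f := by
  obtain ⟨n, i, h1, h2⟩ := f.projective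
  rw [← h2]
  infer_instance

section crv

variable {Y : Scheme.{0}} [IsIntegral Y] [IsNoetherian Y] [Y.IsSeparated] (σ : Y ⟶ Spec (.of ℂ))
  [LocallyOfFiniteType σ] [Algebra ℂ Y.functionField] [IsFF ℂ Y.functionField]
  (ha : ∀ c, algebraMap ℂ Y.functionField c = constants σ c)

include ha

theorem krull_le (z : Y) : Ring.KrullDimLE 1 (Y.presheaf.stalk z) := by
  have hc : ∀ z c, algebraMap ℂ Y.functionField c ∈ loc z := fun z c => ha c ▸ con_loc σ z c
  refine Ring.krullDimLE_one_iff_of_isPrime_bot.2 fun I hI0 hI => ?_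
  obtain ⟨y, hy, rfl⟩ := exists_primeAt I
  obtain ⟨W, hW1, hW2⟩ := H719.exists_dominating y
  have hW : Dom W y := fun a => ⟨hW1 a, hW2 a⟩
  have hk : ∀ c : ℂ, algebraMap ℂ Y.functionField c ∈ W := fun c => hW.mem (hc y c)
  obtain ⟨t, ht, ht0⟩ := Submodule.exists_mem_ne_zero_of_ne_bot hI0
  obtain ⟨P, hP⟩ := P297.exists_place (k := ℂ) W hk (by
    rintro rfl
    refine (mem_primeAt hy t).1 ht (un_toK.1 (hW.un (toK_mem _ _) ?_ trivial))
    rw [toK_toStalk]
    exact toK_ne_zero ht0)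
  subst hP
  rw [Ideal.isMaximal_iff]
  refine ⟨fun h1 => hI.ne_top ((Ideal.eq_top_iff_one _).2 h1), fun J a hJ ha haJ => ?_⟩
  obtain ⟨c, hc'⟩ := P297.exists_const P hk (hW.mem (loc_mono hy (toK_mem z a)))
  obtain ⟨b, hb⟩ := hc z c
  have h1 : a - b ∈ primeAt hy := by
    rw [mem_primeAt, ← un_toK, toK_toStalk, map_sub, hb]
    intro hu
    rcases hc' with hc' | hc'
    · exact hu.1 (sub_eq_zero.2 hc')
    · have h2 := P.ord_nonneg_of_mem (hW.mem hu.2.2)
      rw [P.ord_inv] at h2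
      exact absurd hc' (not_lt.2 (neg_nonneg.1 h2))
  have h2 : IsUnit b := by
    have hc0 : c ≠ 0 := by
      rintro rfl
      rw [map_zero, map_eq_zero_iff _ (toK_injective z)] at hb
      rw [hb, sub_zero] at h1
      exact ha h1
    rw [← un_toK, hb]
    exact ⟨(map_ne_zero _).2 hc0, hc z c, by rw [← map_inv₀]; exact hc z _⟩
  have h3 : b ∈ J := by
    have := J.sub_mem haJ (hJ h1)
    rwa [sub_sub_cancel] at this
  rw [Ideal.eq_top_of_isUnit_mem J h3 h2]
  trivial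

theorem cod_one {P : Place Y.functionField} {z : Y} (hz : Dom P.ring z) : coheight z = 1 := by
  have h4 := (Ring.krullDimLE_iff (n := 1)).1 (krull_le σ ha z)
  rw [ringKrullDim_stalk_eq_coheight] at h4
  refine le_antisymm (by exact_mod_cast h4) (Order.one_le_iff_ne_zero.2 fun h0 => ?_)
  have e := ((show z ⤳ genericPoint Y from
    coheight_eq_zero.1 h0 (genericPoint_specializes z)).antisymm (genericPoint_specializes z)).eq
  exact P.ring_ne_top (top_unique fun g _ => hz.mem (e ▸ mem_loc_gen g))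

theorem conductor_at (z : Y) : ∃ c : Y.presheaf.stalk z, c ≠ 0 ∧ ∀ f : Y.functionField,
    IsIntegral (Y.presheaf.stalk z) f → ∃ r, toK z r = toK z c * f := by
  obtain ⟨U, hU, hz, -⟩ := exists_aff (W := ⊤) (x := z) trivial
  have : Nonempty U := ⟨⟨z, hz⟩⟩
  let _ : Algebra ℂ Γ(Y, U) := (cst σ U).toAlgebra
  have : Algebra.FiniteType ℂ Γ(Y, U) := cst_finiteType σ hU
  have := functionField_isFractionRing_of_isAffineOpen Y U hU
  have : IsScalarTower ℂ Γ(Y, U) Y.functionField :=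
    IsScalarTower.of_algebraMap_eq fun c => (ha c).trans (germ_cst σ U c).symm
  obtain ⟨c, hc0, hc⟩ := exists_conductor (k := ℂ) (R := Γ(Y, U)) (L := Y.functionField)
  have hloc := hU.isLocalization_stalk ⟨z, hz⟩
  let _ := TopCat.Presheaf.algebra_section_stalk Y.presheaf (U := U) ⟨z, hz⟩
  have : IsScalarTower Γ(Y, U) (Y.presheaf.stalk z) Y.functionField :=
    functionField_isScalarTower Y U ⟨z, hz⟩
  have e : ∀ a, toK z (algebraMap Γ(Y, U) _ a) = algebraMap _ Y.functionField a := fun a =>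
    (IsScalarTower.algebraMap_apply _ _ _ a).symm
  refine ⟨algebraMap _ _ c, fun h0 => hc0 (IsFractionRing.injective _ Y.functionField
    (by rw [← e, h0, map_zero, map_zero])), fun f hf => ?_⟩
  obtain ⟨s, hs⟩ := IsIntegral.exists_multiple_integral_of_isLocalization
    (hU.primeIdealOf ⟨z, hz⟩).asIdeal.primeCompl f hf
  obtain ⟨r, hr⟩ := hc _ hs
  obtain ⟨u, hu⟩ := (IsLocalization.map_units (Y.presheaf.stalk z) s).exists_left_inv
  refine ⟨u * algebraMap _ _ r, ?_⟩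
  rw [map_mul, e, hr, Submonoid.smul_def, Algebra.smul_def, ← e, ← e, mul_left_comm,
    ← mul_assoc (toK z u), ← map_mul, hu, map_one, one_mul]

variable {c : PlaceOver ℂ Y.functionField → {z : Y // coheight z = 1}}
  (hc : ∀ P, Dom P.1.ring (c P).1)

include hc

theorem ctr_eq_iff (P : PlaceOver ℂ Y.functionField) (z : {z : Y // coheight z = 1}) :
    c P = z ↔ ∀ a : Y.presheaf.stalk z.1, toK z.1 a ∈ P.1.ring := by
  refine ⟨by rintro rfl a; exact (hc P a).1, fun hz => ?_⟩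
  have := krull_le σ ha z.1
  refine Subtype.ext (dom_uniq (hc P) fun a => ⟨hz a, fun ha => ?_⟩)
  rw [ValuationSubring.mem_nonunits_iff_or]
  by_cases h0 : a = 0
  · exact .inl (by rw [h0, map_zero])
  refine .inr fun hinv => ?_
  have h1 := dom_of_le P.1 hz h0 ha
  have h2 := P.1.ord_nonneg_of_mem hinv
  rw [P.1.ord_inv] at h2
  exact absurd h1 (by change ¬ 0 < P.1.ord (toK z.1 a); omega)

theorem mapDomain_ctr {u : Y.functionField} (hu : u ≠ 0) (z : {z : Y // coheight z = 1}) :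
    Finsupp.mapDomain c (P297.div ℂ u) z = Scheme.ord u z.1 := by
  classical
  have hkr := krull_le σ ha z.1
  obtain ⟨t, ht0, ht⟩ : ∃ t : Y.presheaf.stalk z.1, t ≠ 0 ∧ ¬ IsUnit t := by
    by_contra hcon
    push Not at hcon
    have h1 : IsField (Y.presheaf.stalk z.1) :=
      ⟨exists_pair_ne _, mul_comm, fun {a} ha => (hcon a ha).exists_right_inv⟩
    have h2 := ringKrullDim_eq_zero_of_isField h1
    rw [ringKrullDim_stalk_eq_coheight, z.2] at h2
    exact one_ne_zero (α := WithBot ℕ∞) h2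
  have hfin : {P : PlaceOver ℂ Y.functionField | c P = z}.Finite :=
    (P297.finite_zeros (k := ℂ) (toK z.1 t)).subset fun P hP =>
      dom_of_le P.1 ((ctr_eq_iff σ ha hc P z).1 hP) ht0 ht
  obtain ⟨d, hd0, hd⟩ := conductor_at σ ha z.1
  have h1 := len_formula (k := ℂ) (A := Y.presheaf.stalk z.1)
    (fun c => ha c ▸ con_loc σ z.1 c) hfin.toFinset
    (fun P => by rw [hfin.mem_toFinset]; exact ctr_eq_iff σ ha hc P z) hd0 hd hu
  have h2 : Scheme.ord u z.1 = WithZero.log (Ring.ordFrac (Y.presheaf.stalk z.1) u) := by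
    rw [Scheme.ord_eq_iff z.2 hu]
    exact (WithZero.exp_log ((map_ne_zero _).2 hu)).symm
  rw [h2, h1, P297.mapDomain_apply_finsum]
  have h3 : ∑ᶠ P : {P // c P = z}, P297.div ℂ u P.1 =
      ∑ᶠ (P : PlaceOver ℂ Y.functionField) (_ : P ∈ {P | c P = z}), P.1.ord u :=
    finsum_subtype_eq_finsum_cond (f := fun P : PlaceOver ℂ Y.functionField => P.1.ord u) _
  rw [h3, finsum_mem_eq_finite_toFinset_sum _ hfin]

/-- the degree on a finite cover of the curve -/
theorem sum_ctr {L : Type} [Field L] [Algebra ℂ L] [Algebra Y.functionField L]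
    [IsScalarTower ℂ Y.functionField L] [IsFF ℂ L] [FiniteDimensional Y.functionField L]
    {w : Y → Y.functionField} (hw : ∀ z, w z ≠ 0) (hf : (Function.support fun Q : PlaceOver ℂ L =>
      Q.1.ord (algebraMap _ L (w (c (rp Y.functionField Q))))).Finite) :
    ∑ᶠ Q : PlaceOver ℂ L, Q.1.ord (algebraMap _ L (w (c (rp Y.functionField Q)))) =
      Module.finrank Y.functionField L * ∑ᶠ z : {z : Y // coheight z = 1}, Scheme.ord (w z) z.1 := by
  let Φ : PlaceOver ℂ L →₀ ℤ := Finsupp.ofSupportFinite _ hf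
  have h2 : ∀ z, Finsupp.mapDomain (c ∘ rp Y.functionField) Φ z =
      Module.finrank Y.functionField L * Scheme.ord (w z) z.1 := fun z => by
    rw [← mapDomain_ctr σ ha hc (hw z) z, ← nsmul_eq_mul, ← Finsupp.smul_apply,
      ← Finsupp.mapDomain_smul, ← mapDomain_rp (hw z), ← Finsupp.mapDomain_comp,
      P297.mapDomain_apply_finsum, P297.mapDomain_apply_finsum]
    refine finsum_congr fun Q => ?_
    change Q.1.1.ord (algebraMap _ L (w (c (rp _ Q.1)))) = Q.1.1.ord (algebraMap _ L (w z))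
    rw [show c (rp _ Q.1) = z from Q.2]
  rw [mul_finsum, ← finsum_congr h2, ← P297.deg_eq_finsum, P297.deg_mapDomain, P297.deg_eq_finsum]
  rfl

end crv

namespace Fg

variable {K F : Type} [Field K] [Algebra ℂ K] [Field F] [Algebra ℂ F] {V : ValuationSubring K}
  {ρ : K → F} (h : Fg V ρ)

include h

theorem one : ρ 1 = 1 := by simpa using (h.con 1).2

theorem const {S : Set K} (k : ∀ y ∈ S, y ∈ V ∧ ∃ c, ρ y = algebraMap ℂ F c) {a : K}
    (ha : a ∈ Algebra.adjoin ℂ S) : a ∈ V ∧ ∃ c, ρ a = algebraMap ℂ F c := by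
  induction ha using Algebra.adjoin_induction with
  | mem y hy => exact k y hy
  | algebraMap c => exact ⟨(h.con c).1, c, (h.con c).2⟩
  | add a b _ _ h1 h2 =>
    obtain ⟨a1, c, a2⟩ := h1
    obtain ⟨b1, d, b2⟩ := h2
    exact ⟨add_mem a1 b1, c + d, by rw [h.add a a1 b b1, a2, b2, map_add]⟩
  | mul a b _ _ h1 h2 =>
    obtain ⟨a1, c, a2⟩ := h1
    obtain ⟨b1, d, b2⟩ := h2
    exact ⟨mul_mem a1 b1, c * d, by rw [h.mul a a1 b b1, a2, b2, map_mul]⟩

/-- the ring homomorphism -/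
def hom : V →+* F where
  toFun a := ρ a
  map_one' := h.one
  map_mul' a b := h.mul a a.2 b b.2
  map_zero' := by simpa using (h.con 0).2
  map_add' a b := h.add a a.2 b b.2

theorem pow {a : K} (ha : a ∈ V) (k : ℕ) : ρ (a ^ k) = ρ a ^ k := map_pow h.hom ⟨a, ha⟩ k

theorem inv {a : K} (a0 : a ≠ 0) (ha : a ∈ V) (hb : a⁻¹ ∈ V) : ρ a * ρ a⁻¹ = 1 := by
  rw [← h.mul a ha _ hb, mul_inv_cancel₀ a0, h.one]

end Fg

theorem mx_const {F : Type} [Field F] [Algebra ℂ F] {s : Finset F}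
    (h : ∀ a ∈ s, ∃ c, a = algebraMap ℂ F c) : mx s = 0 := by
  by_cases k : Nz s
  · funext P
    obtain ⟨a, h1, -, e⟩ := P.exists_mz k
    obtain ⟨c, rfl⟩ := h a h1
    simp [mx, e, P.ord_const]
  · exact mx_of_not k

theorem pl_bij {F : Type} [Field F] [Algebra ℂ F] (h : FF F 1) :
    Function.Bijective fun P : Pl F => (⟨P.toPlace, P.con⟩ : PlaceOver ℂ F) := by
  refine ⟨fun P Q e => Pl.ext' (congrArg (fun R : PlaceOver ℂ F => R.1.ring) e), fun Q => ?_⟩
  have e := trdeg_add_eq ℂ (⊥ : IntermediateField ℂ F) (A := F)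
  rw [trdeg_eq_zero, zero_add, h.trdeg, Nat.cast_one] at e
  obtain ⟨P, hP⟩ := On.exists_pl h e Q.1.ring Q.1.ring_ne_top fun a ha => by
    obtain ⟨c, rfl⟩ := IntermediateField.mem_bot.1 ha
    exact Q.2 c
  exact ⟨P, Subtype.ext (P297Z.Pl.ext' hP)⟩

open Classical in
theorem mz_image {X : QV} {F : Type} [Field F] [Algebra ℂ F] {V : ValuationSubring X.K}
    {ρ : X.K → F} (h : Fg V ρ) {x p : X.X} (hx : Dom V x) (e : x ⤳ p) {W : X.X.Opens} (hp : p ∈ W)
    {s : Finset X.K} {D : X.QDiv} {m : ℕ} (hs : Gen s D m W) {a : X.K} (ha : Generates D m a x)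
    (Q : Pl F) (hQ : ∀ u ∈ loc p, ρ u ∈ Q.ring) : ∃ a', Generates D m a' p ∧
      Q.mz (s.image fun g => ρ (g / a)) = -Q.ord (ρ (a' / a)) := by
  obtain ⟨a', h1, h2⟩ := hs.gen p hp
  have u := gn_un (gn_spec h2 e) ha
  have u0 := left_ne_zero_of_mul_eq_one (h.inv u.1 (hx.mem u.2.1) (hx.mem u.2.2))
  refine ⟨a', h2, Q.mz_eq (Finset.mem_image_of_mem _ h1) u0 fun _ hg g0 => ?_⟩
  obtain ⟨g, g1, rfl⟩ := Finset.mem_image.1 hg
  have k := sec_div (hs.sec g g1) hp h2
  rw [← div_mul_div_cancel₀ (a := g) h2.1, h.mul _ (hx.mem (loc_mono e k)) _ (hx.mem u.2.1)] at g0 ⊢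
  rw [Q.ord_mul (left_ne_zero_of_mul g0) u0]
  exact le_add_of_nonneg_left (Q.ord_nonneg_of_mem (hQ _ k))

theorem snef : SNEF := by
  classical
  rintro X Z f U s₀ s t D A m hB ⟨m', m0', hD, hN⟩ m0 hs ht F _ _ hF V ρ a b h h0 ha hb
  obtain ⟨x, xU, hx⟩ := hB.ctr V (fun c => (h.con c).1) fun y hy => (h0 y hy).1
  have ga := hs.lst hx xU ha
  have gb := ht.lst hx xU hb
  by_cases hc : ∀ u ∈ loc x, ∃ c, ρ u = algebraMap ℂ F c
  · rw [mx_const, mx_const]
    · intro _ hg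
      obtain ⟨g, g1, rfl⟩ := Finset.mem_image.1 hg
      exact hc _ (sec_div (hs.sec g g1) xU ga)
    · intro _ hg
      obtain ⟨g, g1, rfl⟩ := Finset.mem_image.1 hg
      exact hc _ (sec_div (ht.sec g g1) xU gb)
  push Not at hc
  obtain ⟨u₀, u1, u2⟩ := hc
  have hu : ∀ {u}, Un x u → ρ u ≠ 0 := fun u =>
    left_ne_zero_of_mul_eq_one (h.inv u.1 (hx.mem u.2.1) (hx.mem u.2.2))
  have cls := hB.cls x xU fun y hy => by
    obtain ⟨y1, c, y2⟩ := h0 y hy
    refine ⟨c, fun u => hu u ?_⟩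
    rw [sub_eq_add_neg, ← map_neg, h.add _ y1 _ (h.con _).1, (h.con _).2, y2, map_neg,
      add_neg_cancel]
  obtain ⟨Y, ι, _, _, rfl⟩ := exists_closed x
  have hfz : ∀ c, f.f (ι c) = f.f (ι (genericPoint Y)) := fun c =>
    ((spec_image ι c).map f.f.continuous).mem_closed cls rfl
  have hW : ∀ c, ι c ∈ f.f ⁻¹ᵁ U := fun c => by
    change f.f (ι c) ∈ U
    rw [hfz]
    exact xU
  let ρ' : X.X.presheaf.stalk (ι (genericPoint Y)) →+* F :=
    h.hom.comp ((toK _).codRestrict V fun a => (hx a).1)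
  have hker : RingHom.ker (resη ι) ≤ RingHom.ker ρ' := fun b hb =>
    (h.zero _ (hx b).1).2 ((hx b).2 fun k => (resη_ne_zero_iff ι b).2 k hb)
  have hsurj : Function.Surjective (resη ι) := ι.stalkMap_surjective _
  let j : Y.functionField →+* F := (resη ι).liftOfSurjective hsurj ⟨ρ', hker⟩
  have hj : ∀ u ∈ loc (ι (genericPoint Y)), j (rs ι u) = ρ u := by
    rintro _ ⟨b, rfl⟩
    rw [rs_toK]
    exact (resη ι).liftOfSurjective_comp_apply hsurj ⟨ρ', hker⟩ b
  let _ : Algebra ℂ Y.functionField := (constants (ι ≫ X.str)).toAlgebra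
  have hcst : ∀ c : ℂ, rs ι (algebraMap ℂ X.K c) = algebraMap ℂ Y.functionField c := fun c => by
    rw [show algebraMap ℂ X.K c = _ from ((toK_germ' ⊤ trivial (ι (genericPoint Y)) trivial _).trans
      (germK_cst X.str (W := ⊤) trivial c)).symm, rs_toK]
    refine (congrArg (fun g => g.hom (cst X.str ⊤ c))
      (Scheme.Hom.germ_stalkMap ι ⊤ (genericPoint Y) trivial)).trans ?_
    change H719.germK (ι ⁻¹ᵁ ⊤) trivial ((ι.app ⊤).hom (cst X.str ⊤ c)) = _
    rw [app_cst]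
    exact germK_cst (ι ≫ X.str) (W := ι ⁻¹ᵁ ⊤) trivial c
  have hjc : ∀ c : ℂ, j (algebraMap ℂ Y.functionField c) = algebraMap ℂ F c := fun c => by
    rw [← hcst, hj _ (con _ c), (h.con c).2]
  let j' : Y.functionField →ₐ[ℂ] F := { j with commutes' := hjc }
  have hdim : Algebra.trdeg ℂ Y.functionField = 1 := by
    refine le_antisymm ((trdeg_le_of_injective j' j.injective).trans
      (hF.trdeg.trans Nat.cast_one).le) ?_
    rw [Cardinal.one_le_iff_ne_zero, trdeg_ne_zero_iff]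
    refine ⟨rs ι u₀, fun h2 => (P297.const_or_transcendental (k := ℂ) (ρ u₀)).elim
      (fun ⟨c, k⟩ => u2 c k) fun k => k ?_⟩
    rw [← hj _ u1]
    exact h2.algHom j'
  let C : Curve X := { C := Y, ι := ι, dim_one := hdim }
  have : IsLocallyNoetherian Y := LocallyOfFiniteType.isLocallyNoetherian ι
  have : CompactSpace Y := ι.isClosedEmbedding.compactSpace
  have : IsNoetherian Y := {}
  have : Y.IsSeparated := ⟨by rw [← Limits.terminal.comp_from ι]; infer_instance⟩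
  have : IsFF ℂ F := ⟨On.ess hF ℂ, hF.trdeg.trans Nat.cast_one⟩
  let _ := j.toAlgebra
  have : IsScalarTower ℂ Y.functionField F := .of_algebraMap_eq fun c => (hjc c).symm
  have : IsFF ℂ Y.functionField := ⟨by
    obtain ⟨_, k⟩ := Gm.ff_alg (L := Y.functionField) hF
    exact On.ess k.2 ℂ, hdim⟩
  have : FiniteDimensional Y.functionField F := finite_ext (k := ℂ)
  have hc : ∀ P : PlaceOver ℂ Y.functionField, ∃ z : {z : Y // coheight z = 1},
      Dom P.1.ring z.1 := fun P => by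
    obtain ⟨z, -, hz⟩ := ctr_of_uc (ι ≫ f.f) hB.aff xU P.1.ring fun r => by
      have k := (hB.gen _).2 fun p hp => ⟨_, toK_germ' _ (gen_mem xU) p hp (f.f.app U r)⟩
      obtain ⟨-, c, k2⟩ := h.const h0 k
      rw [← hj _ ((hB.gen _).1 k _ xU), ← hjc, j.injective.eq_iff,
        ← toK_germ' _ _ _ xU, rs_toK] at k2
      have k3 := P.2 c
      rw [← k2, ← Scheme.Hom.germ_stalkMap_apply f.f U _ xU] at k3
      rw [Scheme.Hom.stalkMap_comp, toK_gen]
      exact k3
    exact ⟨⟨z, cod_one (ι ≫ X.str) (fun _ => rfl) hz⟩, hz⟩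
  choose c hc using hc
  choose G hG using fun p => hD p trivial
  have hw : ∀ z, Un (ι (genericPoint Y)) (G (ι (genericPoint Y)) / G (ι z)) := fun z =>
    gn_un (hG _) (gn_spec (hG _) (spec_image ι z))
  let w : Y → Y.functionField := fun z => rs ι (G (ι (genericPoint Y)) / G (ι z))
  have he := hN C ⟨_, hfz⟩ _ ⟨_, w, hG _, fun z _ => ⟨_, (hw z).2.1.choose, hG _,
    (hw z).2.1.choose_spec, (rs_toK ι _).symm.trans (congrArg _ (hw z).2.1.choose_spec)⟩, rfl⟩
  have hv := gn_cmp (gn_div ga gb) (hG _)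
  let β : BD F := mx (s.image fun g => ρ (g / a)) - mx (t.image fun g => ρ (g / b))
  have hβ : β ∈ Car F := sub_mem (mx_mem_Car _) (mx_mem_Car _)
  have key : ∀ Q : Pl F, ((m' : ℝ) • β - dv (ρ ((a / b) ^ m' / G (ι (genericPoint Y)) ^ m))) Q =
      m * Q.ord (j (w (c (rp _ ⟨Q.toPlace, Q.con⟩)))) := fun Q => by
    set z := (c (rp _ ⟨Q.toPlace, Q.con⟩)).1
    have e := spec_image ι z
    have hQ : ∀ u ∈ loc (ι z), ρ u ∈ Q.ring := fun u hu => hj u (loc_mono e hu) ▸
      (mem_rp (⟨Q.toPlace, Q.con⟩ : PlaceOver ℂ F) _).1 ((hc _).mem (rs_loc hu))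
    obtain ⟨a', a1, a2⟩ := mz_image h hx e (hW z) hs ga Q hQ
    obtain ⟨b', b1, b2⟩ := mz_image h hx e (hW z) ht gb Q hQ
    have v' := gn_cmp (gn_div a1 b1) (hG _)
    have ua := gn_un (gn_spec a1 e) ga
    have ub := gn_un (gn_spec b1 e) gb
    have o : Q.ord (ρ ((a' / b') ^ m' / G (ι z) ^ m)) = 0 := P297Z.Pl.ord_unit _ (hQ _ v'.2.1) (by
      rw [← eq_inv_of_mul_eq_one_right (h.inv v'.1 (hx.mem (loc_mono e v'.2.1))
        (hx.mem (loc_mono e v'.2.2)))]
      exact hQ _ v'.2.2)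
    have id : (a / b) ^ m' / G (ι (genericPoint Y)) ^ m * (G (ι (genericPoint Y)) / G (ι z)) ^ m *
        (a' / a) ^ m' = (a' / b') ^ m' / G (ι z) ^ m * (b' / b) ^ m' := by
      have := ga.1
      have := gb.1
      have := b1.1
      have := (hG (ι z)).1
      have := (hG (ι (genericPoint Y))).1
      simp only [div_pow]
      field_simp
    have id2 := congrArg (fun r => Q.ord (ρ r)) id
    have mm := fun {u} (k : Un (ι (genericPoint Y)) u) => hx.mem k.2.1
    simp only at id2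
    rw [h.mul _ (mm (hv.mul ((hw z).pow m))) _ (mm (ua.pow m')), h.mul _ (mm hv) _ (mm ((hw z).pow m)),
      h.mul _ (mm (v'.mono e)) _ (mm (ub.pow m')), h.pow (mm (hw z)), h.pow (mm ua), h.pow (mm ub),
      Q.ord_mul (mul_ne_zero (hu hv) (pow_ne_zero _ (hu (hw z)))) (pow_ne_zero _ (hu ua)),
      Q.ord_mul (hu hv) (pow_ne_zero _ (hu (hw z))),
      Q.ord_mul (hu (v'.mono e)) (pow_ne_zero _ (hu ub)), o, Q.ord_pow, Q.ord_pow, Q.ord_pow] at id2
    simp only [β, w, Pi.sub_apply, Pi.smul_apply, mx, dv, a2, b2, smul_eq_mul, hj _ (hw z).2.1]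
    have := congrArg (Int.cast : ℤ → ℝ) id2
    push_cast at this ⊢
    linarith
  have hγ := sub_mem (Submodule.smul_mem _ (m' : ℝ) hβ)
    (dv_mem_Car (ρ ((a / b) ^ m' / G (ι (genericPoint Y)) ^ m)))
  have hf : (Function.support fun Q : PlaceOver ℂ F => Q.1.ord (j (w (c (rp _ Q))))).Finite := by
    refine (((Cv.car_iff hF).1 hγ).image fun P : Pl F => ⟨P.toPlace, P.con⟩).subset fun Q hQ => ?_
    obtain ⟨P, rfl⟩ := (pl_bij hF).2 Q
    refine ⟨P, ?_, rfl⟩
    rw [Function.mem_support, key]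
    exact mul_ne_zero (Nat.cast_ne_zero.2 m0.ne') (Int.cast_ne_zero.2 hQ)
  have k := sum_ctr (ι ≫ X.str) (fun _ => rfl) hc
    (fun z => (P270L.S.rs_ne_zero (hw z).2.1).2 (hw z)) hf
  have k2 : 0 ≤ I1 ((m' : ℝ) • β - dv (ρ ((a / b) ^ m' / G (ι (genericPoint Y)) ^ m))) := by
    rw [Cv.I1_eq, finsum_congr key, ← mul_finsum, finsum_eq_of_bijective _ (pl_bij hF)
      (g := fun Q => (Q.1.ord (j (w (c (rp _ Q)))) : ℝ)) fun _ => rfl]
    refine mul_nonneg m.cast_nonneg ?_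
    exact le_of_le_of_eq (Int.cast_nonneg (le_of_le_of_eq (mul_nonneg (Int.natCast_nonneg _) he)
      k.symm)) ((Int.castAddHom ℝ).map_finsum hf)
  rw [Cv.I1_sub hF (Submodule.smul_mem _ _ hβ) (dv_mem_Car _), Cv.I1_dv hF, sub_zero, Cv.I1_smul,
    mul_nonneg_iff_of_pos_left (Nat.cast_pos.2 m0'),
    Cv.I1_sub hF (mx_mem_Car _) (mx_mem_Car _), sub_nonneg] at k2
  exact k2

end Vale.Agent.P283B.Br
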