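import Vale.Agent.P283B.BR.St
import Vale.Agent.P283B.ACC.Wv
import Vale.Agent.P287D.Mm.Eng

/-!
# P283B, block BR: negativity over an affine open set of the base
-/

set_option linter.unusedVariables false
set_option linter.unusedSectionVars false

open Set Function
open Vale.Agent.P287D

noncomputable section

namespace Vale.Agent.P283B.Br

variable {K : Type} [Field K] [Algebra ℂ K] {n : ℕ} {Λ Ω β γ G H H' M A D Z Z' p : BD K}
  {s₀ : Finset K} {P Q R₀ : Pl K}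

theorem fn_up (h0 : 0 ≤ H) (h : H R₀ = 0) (k : CLe H R₀ P) : H P = 0 := k.zero (.refl h0) h

theorem Ov.fn (h1 : 1 ∈ s₀) (h : Fn s₀ R₀) (k : Ov s₀ R₀ P) : Fn s₀ P := fn_up (mx_nonneg h1) h k

/-- the rows which are used -/
structure Rw : Prop where
  ffs : FFS
  md : MOD
  rs : RES
  it : INT
  vl : VOL
  ng : NEG

namespace Rw

variable (r : Rw) (hK : FF K (n + 1))
include r hK

theorem isb (h : β ∈ Car K) : IsB n β := (r.md.isb n K hK).1 β h

theorem fin (hΛ : Smp Λ) (hb : Big Λ) (h : β ∈ Car K) : {P | On n Λ P ∧ β P ≠ 0}.Finite :=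
  Gs.isb_fin hK r.ng hΛ hb (r.isb hK h)

theorem radd (P : Pl K) (a : β ∈ Car K) (b : γ ∈ Car K) : res P (β + γ) =
    res P β + res P γ := r.rs.add n K hK P β a γ b

theorem rsmul (P : Pl K) (c : ℝ) (a : β ∈ Car K) : res P (c • β) = c • res P β :=
  r.rs.smul n K hK P c β a

theorem rsub (P : Pl K) (a : β ∈ Car K) (b : γ ∈ Car K) : res P (β - γ) =
    res P β - res P γ := by
  rw [sub_eq_add_neg, r.radd hK P a (neg_mem b), ← neg_one_smul ℝ γ, r.rsmul hK P _ b,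
    neg_one_smul, sub_eq_add_neg]

theorem rzero (P : Pl K) : res P (0 : BD K) = 0 := by
  simpa using r.rsmul hK P 0 (zero_mem _)

theorem rsmp (P : Pl K) (h : Smp β) : Smp (res P β) := (r.rs.des n K hK _ _ P (.refl h)).smp

theorem reff (h : β ∈ Car K) (k : Rep β G) (e : G P = 0) : Eff (res P β) :=
  ⟨_, r.rs.nn n K hK P G (k.car h) k.1 e,
    r.rsub hK P (k.car h) h ▸ Mm.res_prn r.rs hK P k.2⟩

/-- **local Hartogs** -/
theorem lh (hΛ : Smp Λ) (hb : Big Λ) (d : Dsc Λ β) (dH : Dsc Λ H) (h0 : 0 ≤ H)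
    (k : ∀ P, On n Λ P → H P = 0 → 0 ≤ β P) : ∃ c : ℝ, 0 < c ∧ 0 ≤ β + c • H := by
  obtain ⟨c, hc⟩ := ((r.fin hK hΛ hb d.car).image fun P => -β P / H P).bddAbove
  refine ⟨max c 1, by positivity, Gs.det r.ng hK hΛ hb (d.add (dH.smul _)) fun P o => ?_⟩
  change 0 ≤ β P + max c 1 * H P
  rcases (h0 P).eq_or_lt with e | e
  · have e' : H P = 0 := e.symm
    simpa [e'] using k P o e'
  have e' : 0 < H P := e
  by_cases z : β P = 0
  · rw [z]
    positivity
  · have := (div_le_iff₀ e').1 ((hc ⟨P, ⟨o, z⟩, rfl⟩).trans (le_max_left c 1))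
    linarith

theorem lh' (hΛ : Smp Λ) (hb : Big Λ) (d : Dsc Λ β) (d' : Dsc Λ γ) (dH : Dsc Λ H) (h0 : 0 ≤ H)
    (k : ∀ P, On n Λ P → H P = 0 → β P ≤ γ P) (e : H P = 0) : β P ≤ γ P := by
  obtain ⟨c, -, a⟩ := r.lh hK hΛ hb (d'.sub d) dH h0 fun P o z => sub_nonneg.2 (k P o z)
  simpa [e] using a P

theorem model {B : Set (BD K)} (hB : B.Finite) (h : B ⊆ Car K) (hΛ : Smp Λ) :
    ∃ Ω, Smp Ω ∧ Big Ω ∧ Dsc Ω Λ ∧ ∀ β ∈ B, Dsc Ω β := by
  obtain ⟨s, -, a⟩ := exists_big hK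
  obtain ⟨u, -, b⟩ := exists_dsc_fin hB h
  have c := (smp_mx s).add (smp_mx u)
  exact ⟨Λ + (mx s + mx u), hΛ.add c, (a.add_smp (smp_mx u)).mono (le_refl _) |>.of_sub
    (by simpa using hΛ.psef), .self_add hΛ c,
    fun β k => ((b β k).add_left' (smp_mx s)).add_left' hΛ⟩

/-- the same for Cartier b-divisors -/
theorem lhc (a : β ∈ Car K) (b : H ∈ Car K) (h0 : 0 ≤ H) (k : ∀ P, H P = 0 → 0 ≤ β P) :
    ∃ c : ℝ, 0 < c ∧ 0 ≤ β + c • H :=
  let ⟨_, x, y, _, z⟩ := r.model hK (toFinite {β, H}) (insert_subset a (singleton_subset_iff.2 b))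
    Smp.zero
  r.lh hK x y (z _ (.inl rfl)) (z _ (.inr rfl)) h0 fun P _ => k P

/-- a class which is principal over `U` does not separate more points of `U` -/
theorem ovl (b : H ∈ Car K) (h0 : 0 ≤ H) (hp : p ∈ Prn K) (e : ∀ P, H P = 0 → H' P = p P)
    (h : H R₀ = 0) (k : CLe H R₀ P) : CLe H' R₀ P := fun G a g => by
  have q : ∀ Q, H Q = 0 → (G - H' + p) Q = G Q := fun Q z => by simp [e Q z]
  obtain ⟨c, c0, x⟩ := r.lhc hK (Prn_le_Car (add_mem a.2 hp)) b h0 fun Q z => q Q z ▸ a.1 Q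
  have y := k (c⁻¹ • (G - H' + p + c • H)) ⟨smul_nonneg (inv_pos.2 c0).le x, by
    rw [smul_add, inv_smul_smul₀ c0.ne', add_sub_cancel_right]
    exact Submodule.smul_mem _ _ (add_mem a.2 hp)⟩
  simp only [Pi.smul_apply, Pi.add_apply _ (c • H), h, fn_up h0 h k, q _ h, q _ (fn_up h0 h k),
    smul_eq_mul, mul_zero, add_zero] at y
  exact (pos_iff_pos_of_mul_pos (y (mul_pos (inv_pos.2 c0) g))).1 (inv_pos.2 c0)

theorem cons_add {b : Fin n → BD K} (hZ : IsB n Z) (hZ' : IsB n Z') (hb : ∀ i, b i ∈ Car K) :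
    I (n + 1) K (Fin.cons (Z + Z') b) =
      I (n + 1) K (Fin.cons Z b) + I (n + 1) K (Fin.cons Z' b) := by
  simpa only [Fin.update_cons_zero] using r.it.add _ K hK (Fin.cons Z b) 0 Z Z' hZ hZ'
    (Fin.cases hZ fun i => r.isb hK (hb i)) (Fin.cases (fun h => (h rfl).elim) fun i _ => hb i)
    fun h => (h rfl).elim

/-- a semiample divisor with a member which has a big component is big -/
theorem big_of_on (hM : Smp M) (a : Rep M G) (g : 0 < G P) (o : On n M P) : Big M := by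
  have c := a.car hM.car
  have i := In.IsB.sub (r.isb hK c) (In.IsB.smul (In.isB_δ P) (G P))
  have x := r.it.nn n K hK (G - G P • P.δ) (fun _ => M) (Eff.of_nonneg fun Q => by
    by_cases e : Q = P
    · simp [e, P.δ_self]
    · simpa [Pl.δ_ne e] using a.1 Q).psef i fun _ => hM.nef
  have y := r.it.prn _ K hK (Fin.cons (M - G) fun _ => M) 0
    (Fin.cases (fun h => (h rfl).elim) fun i _ => hM.car) (by simpa using neg_mem a.2)
  refine (r.vl.big _ K hK M hM.nef).2 ?_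
  have e : vol (n + 1) M = I (n + 1) K (Fin.cons (M - G + (G - G P • P.δ + G P • P.δ))
      fun _ => M) := by
    rw [sub_add_cancel, sub_add_cancel, In.vol_succ]
  rw [e, r.cons_add hK (r.isb hK (sub_mem hM.car c)) (by simpa using r.isb hK c) fun _ => hM.car, y,
    r.cons_add hK i (In.IsB.smul (In.isB_δ P) _) fun _ => hM.car, In.cons_smul, In.I_δ, zero_add]
  exact add_pos_of_nonneg_of_pos x (mul_pos g o)

end Rw

theorem cnef_nef (r : Rw) : ∀ (n : ℕ) (K : Type) [Field K] [Algebra ℂ K], FF K (n + 1) →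
    ∀ D ∈ Car K, CNef n K D 0 → Nef D
  | 0, K, _, _, hK, D, a, h => (r.it.nef1 K hK D (r.isb hK a)).2.1.2 (h rfl)
  | n + 1, K, _, _, hK, D, a, h => r.it.nef n K hK D a fun P =>
    cnef_nef r n P.κ (r.ffs.rsd _ K hK P) _ (In.res_car _ _) (r.rzero hK P ▸ h P rfl)

theorem Rw.step (r : Rw) (hK : FF K (n + 1)) (h0 : 0 ≤ H) (hM : Smp M) (d : Dsc M H)
    (a : D ∈ Car K) (c : CNef n K D H) (b : Big A) (e : Eff (M - A - D)) : Big M ∨
      ∃ P G A', Rep M G ∧ 0 < G P ∧ H P = 0 ∧ Big A' ∧ Eff (res P M - A' - res P D) := by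
  obtain ⟨Ω, x, y, z, w⟩ := r.model hK (finite_singleton D) (singleton_subset_iff.2 a) hM
  obtain ⟨ε, e0, k⟩ := b.exists_eff x.car
  obtain ⟨E, hE⟩ : Eff (M - ε • Ω - D) := (e.add k).congr (by
    rw [show M - ε • Ω - D - (M - A - D + (A - ε • Ω)) = 0 by abel]
    exact zero_mem _)
  have cE := sub_mem (sub_mem hM.car (Submodule.smul_mem _ ε x.car)) a
  obtain ⟨G, g1, g2⟩ := hM.exists_rep ((r.fin hK x y (hE.car cE)).union (r.fin hK x y d.car))
  by_cases u : ∃ P, On n Ω P ∧ 0 < G P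
  · obtain ⟨P, o, u⟩ := u
    have v : ¬ _ := fun v => u.ne' (g2 P v)
    simp only [mem_union, mem_ofPred_eq, o, true_and, not_or, not_not] at v
    refine .inr ⟨P, G, res P (ε • Ω), g1, u, v.2, ?_, ?_⟩
    · exact r.rsmul hK P ε x.car ▸ ((r.rs.on n K hK Ω P x).1 o).smul e0
    · have := r.reff hK cE hE v.1
      rwa [r.rsub hK P (sub_mem hM.car (Submodule.smul_mem _ ε x.car)) a,
        r.rsub hK P hM.car (Submodule.smul_mem _ ε x.car)] at this
  · push Not at u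
    have v : G = 0 := le_antisymm (neg_nonneg.1 (Gs.det r.ng hK x y (z.congr g1.2).neg
      fun P o => neg_nonneg.2 (u P o))) g1.1
    obtain ⟨δ, d0, G', g3⟩ := d.exists_sub.imp fun _ h => h.imp_right Smp.eff
    have q := r.md.zero n K hK (G' + δ • H) (by
      have := sub_mem g3.2 g1.2
      rwa [v, show G' - (M - δ • H) - (0 - M) = G' + δ • H by abel] at this)
      (add_nonneg g3.1 (smul_nonneg d0.le h0))
    have q' : H = 0 := le_antisymm (fun P => by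
      have x1 := congrFun q P
      have x2 : 0 ≤ G' P := g3.1 P
      change G' P + δ * H P = 0 at x1
      change H P ≤ 0
      nlinarith) h0
    refine .inl (((y.smul e0).add_nef (cnef_nef r n K hK D a (q' ▸ c))).of_sub ?_)
    rw [← sub_sub]
    exact hE.eff.psef

theorem bigu' (r : Rw) : ∀ (n : ℕ) (K : Type) [Field K] [Algebra ℂ K], FF K (n + 1) →
    ∀ M A D H : BD K, 0 ≤ H → Smp M → Dsc M H → D ∈ Car K → CNef n K D H → Big A →
      Eff (M - A - D) → Big M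
  | 0, K, _, _, hK, M, A, D, H, h0, hM, d, a, c, b, e =>
    (r.step hK h0 hM d a c b e).elim id fun ⟨_, _, _, x, y, _⟩ =>
      r.big_of_on hK hM x y (zero_lt_one (α := ℝ))
  | n + 1, K, _, _, hK, M, A, D, H, h0, hM, d, a, c, b, e =>
    (r.step hK h0 hM d a c b e).elim id fun ⟨P, _, A', x, y, z, u, v⟩ =>
      r.big_of_on hK hM x y ((r.rs.on _ K hK M P hM).2 (bigu' r n P.κ (r.ffs.rsd _ K hK P) _ A' _ _
        (r.rs.nn _ K hK P H d.car h0 z) (r.rsmp hK P hM) (r.rs.des _ K hK _ _ P d)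
        (In.res_car _ _) (c P z) u v))

/-- **BIGU** -/
theorem bigu (r : Rw) : BIGU := fun n K _ _ hK M A D _ h => bigu' r n K hK M A D _ (mx_nonneg h)

theorem lneg' (r : Rw) (hK : FF K (n + 1)) (h0 : 0 ≤ H) (hΛ : Smp Λ) (hb : Big Λ) (q : QF n Λ)
    (dH : Dsc Λ H) (d : Dsc Λ β) (a : D ∈ Car K) (c : CNef n K D H)
    (k : ∀ P, On n Λ P → H P = 0 → D P ≤ β P) (e : H P = 0) : D P ≤ β P := by
  obtain ⟨Ω, x, y, z, w⟩ := r.model hK (finite_singleton D) (singleton_subset_iff.2 a) hΛ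
  refine r.lh' hK x y (w D rfl) (z.trans d) (z.trans dH) h0 (fun P o e => by_contra fun u => ?_) e
  obtain ⟨F, f0, f1, f2, f3⟩ := r.ng.exa n K hK Λ Ω hΛ hb x z q
  have dF : Dsc Ω F := by simpa using z.sub f3.1
  obtain ⟨R, ⟨r1, r2, r3⟩, r4⟩ := exists_max_image {P | On n Ω P ∧ H P = 0 ∧ β P < D P}
    (fun P => (D P - β P) / F P) ((r.fin hK x y (sub_mem a d.car)).subset fun P p =>
      ⟨p.1, sub_ne_zero.2 p.2.2.ne'⟩) ⟨P, o, e, not_le.1 u⟩
  have nR : ¬ On n Λ R := fun o => r3.not_ge (k R o r2)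
  have fR := f2 R nR r1
  obtain ⟨t, ht⟩ : ∃ t, t = (D R - β R) / F R := ⟨_, rfl⟩
  have t0 : 0 < t := ht ▸ div_pos (sub_pos.2 r3) fR
  obtain ⟨j, -, hj⟩ := r.lh hK x y (((dF.smul t).sub (w D rfl)).add (z.trans d)) (z.trans dH) h0
    fun Q o e => by
      change 0 ≤ t * F Q - D Q + β Q
      rcases le_or_gt (D Q) (β Q) with v | v
      · linarith [mul_nonneg t0.le (f0 Q)]
      · linarith [(div_le_iff₀ (f2 Q (fun o' => v.not_ge (k Q o' e)) o)).1 (ht ▸ r4 Q ⟨o, e, v⟩)]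
  obtain ⟨m, m0, hm⟩ := (AmpOn.refl hΛ).exists_large ((d.add (dH.smul j)).add ((Dsc.refl hΛ).smul t))
  have am := hm m le_rfl
  obtain _ | n := n
  · exact nR (zero_lt_one (α := ℝ))
  have cA := (f3.smul t0).car
  obtain ⟨G, g1, g2⟩ := (hΛ.smul m0.le).exists_rep (finite_singleton R)
  refine nR ((Mm.on_amp r.rs hK am).2 ((r.rs.on _ K hK _ R am.smp).2 (bigu' r n R.κ
    (r.ffs.rsd _ K hK R) _ (res R (t • (Λ - F))) _ _ (r.rs.nn _ K hK R H dH.car h0 r2)
    (r.rsmp hK R am.smp) (r.rs.des _ K hK _ _ R (am.dsc'.trans dH)) (In.res_car _ _) (c R r2)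
    ((r.rs.on _ K hK _ R (f3.smul t0).smp).1 ((Mm.on_amp r.rs hK (f3.smul t0)).1 r1)) ?_)))
  rw [← r.rsub hK R am.car cA, ← r.rsub hK R (sub_mem am.car cA) a]
  refine r.reff hK (sub_mem (sub_mem am.car cA) a) (G := t • F - D + β + j • H + G)
    ⟨add_nonneg hj g1.1, ?_⟩ ?_
  · rw [show t • F - D + β + j • H + G - (β + j • H + t • Λ + m • Λ - t • (Λ - F) - D) =
      G - m • Λ by module]
    exact g1.2
  · change t * F R - D R + β R + j * H R + G R = 0
    rw [r2, g2 R rfl, ht, div_mul_cancel₀ _ fR.ne']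
    ring

/-- **LNEG** -/
theorem lneg (r : Rw) : LNEG := fun n K _ _ hK Λ β D _ h a b c d e f g k P p =>
  lneg' r hK (mx_nonneg h) a b c d e f g k p

end Vale.Agent.P283B.Br
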