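import Vale.Agent.P283B.BR.SmDf
import Vale.Agent.P283B.BR.Main
import Mathlib.RingTheory.Unramified.LocalStructure

/-!
# P283B, block BR: smooth points of the base
-/

set_option linter.all false

open Set CategoryTheory AlgebraicGeometry TopologicalSpace Function

noncomputable section

namespace Vale.Agent.P283B.Br

open P287D Lit Lit.QV P299.G P289 P289.H219
open P270L.S (loc Un Dom un_toK toK_mem mem_loc_gen loc_mono)
open P289.H719 (germK)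

theorem lcl_smo : Lcl Smo := fun K _ _ s s' P h ⟨e, y, θ, F, k⟩ =>
  ⟨e, y, θ, F, (show Oz s P = Oz s' P from Subalgebra.ext fun _ =>
    forall_congr' fun Q => imp_congr_left (h Q)) ▸ k⟩

theorem et_of {K S : Type} [Field K] [Algebra ℂ K] [CommRing S] [Algebra ℂ S]
    [Algebra.FinitePresentation ℂ S] (p : Ideal S) [p.IsPrime] [Algebra.IsSmoothAt ℂ p]
    (ψ : S →ₐ[ℂ] K) (hψ : Injective ψ) : ∃ r ∉ p, ∀ (O : Subalgebra ℂ K) (P : Pl K),
      (∀ h ∈ O, h ∈ P.ring) → P.ord (ψ r) = 0 →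
      (∀ h, h ∈ O ↔ ∃ a b, ψ b ≠ 0 ∧ P.ord (ψ b) = 0 ∧ h = ψ a / ψ b) →
      ∃ (e : ℕ) (y : Fin e → K) (θ : K) (F : Polynomial (MvPolynomial (Fin e) ℂ)),
        Et O P y θ F := by
  obtain ⟨r, hr, e, _, _, ⟨⟨E⟩⟩⟩ :=
    Algebra.IsSmoothAt.exists_isStandardEtale_mvPolynomial (R := ℂ) (p := p)
  refine ⟨r, hr, fun O P hO h0 hl => ?_⟩
  have r0 : ψ r ≠ 0 := fun k => hr ((hψ (k.trans (map_zero ψ).symm)).symm ▸ p.zero_mem)
  let Ψ : Localization.Away r →ₐ[ℂ] K := IsLocalization.liftAlgHom (M := .powers r) (f := ψ)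
    (by rintro ⟨_, n, rfl⟩; simpa using (pow_ne_zero n r0))
  have e1 : ∀ a, Ψ (algebraMap S _ a) = ψ a := fun a => IsLocalization.lift_eq _ a
  have hΨ : ∀ t, ∃ (a : S) (n : ℕ), t * algebraMap S _ r ^ n = algebraMap S _ a ∧
      Ψ t = ψ a / ψ (r ^ n) := fun t => by
    obtain ⟨⟨a, _, n, rfl⟩, h⟩ := IsLocalization.surj (.powers r) t
    refine ⟨a, n, by simpa using h, ?_⟩
    rw [eq_div_iff (by simpa using pow_ne_zero n r0), ← e1, ← e1, ← map_mul, h]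
  have inj : Injective Ψ := (injective_iff_map_eq_zero _).2 fun t ht => by
    obtain ⟨a, n, h1, h2⟩ := hΨ t
    rw [ht, eq_comm, div_eq_zero_iff, or_iff_left (by simpa using pow_ne_zero n r0),
      map_eq_zero_iff _ hψ] at h2
    rw [h2, map_zero] at h1
    exact ((IsLocalization.Away.algebraMap_isUnit r).pow n).mul_left_eq_zero.1 h1
  have mem : ∀ t, Ψ t ∈ O := fun t =>
    let ⟨a, n, _, h⟩ := hΨ t
    (hl _).2 ⟨a, _, by simpa using pow_ne_zero n r0, by rw [map_pow, P.ord_pow, h0, mul_zero], h⟩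
  have un : ∀ t, IsUnit t → Ψ t ≠ 0 ∧ P.ord (Ψ t) = 0 := by
    rintro _ ⟨u, rfl⟩
    refine ⟨(u.isUnit.map Ψ).ne_zero, P297Z.Pl.ord_unit _ (hO _ (mem _)) ?_⟩
    rw [← map_units_inv]
    exact hO _ (mem _)
  let y : Fin e → K := fun i => Ψ (algebraMap _ _ (MvPolynomial.X i : MvPolynomial (Fin e) ℂ))
  have e2 : (MvPolynomial.aeval y : MvPolynomial (Fin e) ℂ →ₐ[ℂ] K) =
      Ψ.comp (IsScalarTower.toAlgHom ℂ _ _) := MvPolynomial.algHom_ext fun i => by simp [y]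
  have e3 : ∀ G, ev y (Ψ E.x) G = Ψ (G.aeval E.x) := fun G => by
    rw [ev, e2, Polynomial.aeval_def]
    exact (Polynomial.hom_eval₂ G _ (Ψ : Localization.Away r →+* K) _).symm
  haveI : Algebra.IsStandardEtale (MvPolynomial (Fin e) ℂ) (Localization.Away r) := ⟨⟨E⟩⟩
  haveI : Nontrivial (Localization.Away r) := Ψ.toRingHom.domain_nontrivial
  refine ⟨e, y, Ψ E.x, E.f, ?_, E.monic_f, by rw [e3, E.hasMap.1, map_zero],
    e3 _ ▸ (un _ E.hasMap.isUnit_derivative_f).1, e3 _ ▸ (un _ E.hasMap.isUnit_derivative_f).2,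
    fun h => ⟨fun k => ?_, ?_⟩⟩
  · rw [algebraicIndependent_iff_injective_aeval, e2]
    exact inj.comp (FaithfulSMul.algebraMap_injective _ _)
  · obtain ⟨a, b, b0, b1, rfl⟩ := (hl h).1 k
    obtain ⟨g0, g1⟩ := un _ E.hasMap.2
    obtain ⟨a', m, ha⟩ := E.exists_mul_aeval_x_g_pow_eq_aeval_x (algebraMap S _ a)
    obtain ⟨b', n, hb⟩ := E.exists_mul_aeval_x_g_pow_eq_aeval_x (algebraMap S _ b)
    refine ⟨a' * E.g ^ n, b' * E.g ^ m, ?_⟩
    simp only [e3, map_mul, map_pow, ← ha, ← hb, e1]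
    refine ⟨by positivity, ?_, by field_simp⟩
    rw [P.ord_mul (by positivity) (by positivity), P.ord_mul b0 (by positivity), P.ord_pow,
      P.ord_pow, b1, g1]
    simp
  · rintro ⟨a, b, b0, b1, rfl⟩
    rw [e3] at b0 b1
    obtain ⟨c, d, d0, d1, k⟩ := (hl _).1 (mem (b.aeval E.x))
    have c0 : ψ c ≠ 0 := fun z => b0 (by rw [k, z, zero_div])
    rw [k, P.ord_div c0 d0, d1, sub_zero] at b1
    rw [e3, e3, k, div_eq_mul_inv, inv_div]
    exact mul_mem (mem _) ((hl _).2 ⟨d, c, c0, b1, rfl⟩)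

variable {X Z : QV} {f : Contraction X Z} {U : Z.X.Opens} {s₀ : Finset X.K} {P : Pl X.K} {x : X.X}

/-- the local ring of the base -/
theorem Base.oz (h : Base f U s₀) (hx : x ∈ f.f ⁻¹ᵁ U) (hP : Dom P.ring x) (g : X.K) :
    g ∈ Oz s₀ P ↔ ∃ a ∈ Algebra.adjoin ℂ (s₀ : Set X.K), ∃ b ∈ Algebra.adjoin ℂ (s₀ : Set X.K),
      Un x b ∧ g = a / b := by
  refine ⟨fun k => ?_, ?_⟩
  · have h1 : ∀ y : X.PrimeDiv, ∃ b ∈ Algebra.adjoin ℂ (s₀ : Set X.K), Un x b ∧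
        (y.1 ∈ f.f ⁻¹ᵁ U → g ≠ 0 → 0 ≤ ord (b * g) y) := fun y => by
      obtain ⟨Q, i⟩ := pl y
      by_cases hy : y.1 ∈ f.f ⁻¹ᵁ U
      · by_cases e : f.f y.1 ⤳ f.f x
        · refine ⟨1, one_mem _, P270L.S.un_one x, fun _ _ => ?_⟩
          rw [one_mul, ← i.2]
          exact Q.ord_nonneg_of_mem (k Q ((h.ov hy hx i.dom hP).2 e))
        · rw [h.spec _ hy _ hx] at e
          push Not at e
          obtain ⟨b, b1, b2, b3⟩ := e
          have := (pos_iff i.dom ((h.gen b).1 b1 _ hy) b2.1).2 b3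
          refine ⟨b ^ (Q.ord g).natAbs, pow_mem b1 _, b2.pow _, fun _ g0 => ?_⟩
          rw [← i.2, Q.ord_mul (pow_ne_zero _ b2.1) g0, Q.ord_pow]
          have := Int.natCast_natAbs (Q.ord g) ▸ neg_abs_le (Q.ord g)
          nlinarith [Int.natCast_nonneg (Q.ord g).natAbs]
      · exact ⟨1, one_mem _, P270L.S.un_one x, fun a => (hy a).elim⟩
    by_cases g0 : g = 0
    · exact ⟨0, zero_mem _, 1, one_mem _, P270L.S.un_one x, by simp [g0]⟩
    classical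
    choose b b1 b2 b3 using h1
    let T := (fin_ord g).toFinset
    have u : Un x (∏ y ∈ T, b y) := Finset.prod_induction _ _ (fun _ _ => Un.mul)
      (P270L.S.un_one x) fun y _ => b2 y
    have m : ∀ T : Finset X.PrimeDiv, ∏ y ∈ T, b y ∈ Algebra.adjoin ℂ (s₀ : Set X.K) :=
      fun T => prod_mem fun y _ => b1 y
    refine ⟨(∏ y ∈ T, b y) * g, (h.gen _).2 fun p hp => hart fun y hy => ?_, _, m T, u,
      (mul_div_cancel_left₀ _ u.1).symm⟩
    have hy' := hy.mem_open (f.f ⁻¹ᵁ U).2 hp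
    by_cases e : y ∈ T
    · rw [← Finset.prod_erase_mul _ _ e, mul_assoc, Sy.ord_mul' (Finset.prod_ne_zero_iff.2
        fun z _ => (b2 z).1) (mul_ne_zero (b2 y).1 g0)]
      exact add_nonneg (Sy.ord_nonneg ((h.gen _).1 (m _) _ hy')) (b3 y hy' g0)
    · rw [Sy.ord_mul' u.1 g0, show ord g y = 0 from
        by_contra fun z => e ((fin_ord g).mem_toFinset.2 z), add_zero]
      exact Sy.ord_nonneg ((h.gen _).1 (m _) _ hy')
  · rintro ⟨a, a1, b, b1, u, rfl⟩ Q o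
    obtain ⟨y, y1, y2⟩ := h.cen (h.ov_fn (h.fn hx hP) o)
    exact y2.mem (div_eq_mul_inv a b ▸ mul_mem ((h.gen a).1 a1 y y1)
      ((h.spec y y1 x hx).1 ((h.ov y1 hx y2 hP).1 o) b b1 u).2.2)

/-- `Z` is smooth at `z` -/
def SmAt (Z : QV) (z : Pt Z.X) : Prop := ∃ V : Z.X.Opens, z ∈ V ∧ Smooth (V.ι ≫ Z.str)

theorem cmp_smo : Cmp SmAt Smo := by
  rintro X Z f U s₀ z P x h ⟨V, zV, hV⟩ zU hP e
  have hx : x ∈ f.f ⁻¹ᵁ U := e.mem_open U.2 zU
  have hη := gen_mem hx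
  let c : ℂ →+* Γ(Spec (CommRingCat.of ℂ), ⊤) := (Scheme.ΓSpecIso (CommRingCat.of ℂ)).inv.hom
  have hc : Bijective c :=
    (Scheme.ΓSpecIso (CommRingCat.of ℂ)).symm.commRingCatIsoToRingEquiv.bijective
  have : LocallyOfFinitePresentation Z.str := inferInstance
  have h1 := Z.str.finitePresentation_appLE (isAffineOpen_top _) h.aff (V := U) le_top
  have h2 : z ∈ Z.str.smoothLocus := by
    have : (⟨z, zV⟩ : V) ∈ (V.ι ≫ Z.str).smoothLocus := by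
      rw [Scheme.Hom.smoothLocus_eq_top]; trivial
    rwa [← Scheme.Hom.preimage_smoothLocus_eq] at this
  have h3 := (formallySmooth_stalkMap_iff ⊤ (isAffineOpen_top _) U h.aff le_top zU).1 h2
  algebraize [c, (Z.str.appLE ⊤ U le_top).hom, (Z.str.appLE ⊤ U le_top).hom.comp c]
  have e0 := AlgEquiv.ofBijective (Algebra.ofId ℂ Γ(Spec (CommRingCat.of ℂ), ⊤)) hc
  have : Algebra.FinitePresentation ℂ Γ(Spec (CommRingCat.of ℂ), ⊤) := .equiv e0
  have : Algebra.FormallySmooth ℂ Γ(Spec (CommRingCat.of ℂ), ⊤) := .of_equiv e0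
  have : Algebra.FinitePresentation ℂ Γ(Z.X, U) := .trans ℂ Γ(Spec (CommRingCat.of ℂ), ⊤) _
  let p := (h.aff.primeIdealOf ⟨z, zU⟩).asIdeal
  have : Algebra.FormallySmooth Γ(Spec (CommRingCat.of ℂ), ⊤) (Localization.AtPrime p) := h3
  have : Algebra.IsSmoothAt ℂ p := Algebra.FormallySmooth.comp ℂ Γ(Spec (CommRingCat.of ℂ), ⊤) _
  have h4 : Z.str.appLE ⊤ U le_top ≫ f.f.app U ≫ X.X.presheaf.germ _ _ hη =
      X.str.appTop ≫ X.X.presheaf.germ ⊤ (genericPoint X.X) trivial := by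
    have k : ∀ (φ : X.X ⟶ Spec (CommRingCat.of ℂ)) (_ : φ = X.str) (e : f.f ⁻¹ᵁ U ≤ φ ⁻¹ᵁ ⊤),
        φ.appLE ⊤ _ e ≫ X.X.presheaf.germ _ _ hη =
          X.str.appTop ≫ X.X.presheaf.germ ⊤ (genericPoint X.X) trivial := by
      rintro _ rfl e
      exact (Category.assoc _ _ _).trans (congrArg _ (X.X.presheaf.germ_res (homOfLE e) _ hη))
    rw [Scheme.Hom.app_eq_appLE]
    exact (Scheme.Hom.appLE_comp_appLE_assoc _ _ _ _ _ _ _ _).trans (k _ f.over _)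
  let ψ : Γ(Z.X, U) →ₐ[ℂ] X.K :=
    { (germK _ hη).comp (f.f.app U).hom with
      commutes' := fun a =>
        congrArg (fun φ => φ.hom ((Scheme.ΓSpecIso (CommRingCat.of ℂ)).inv.hom a)) h4 }
  have := f.stein U
  have hb := (asIso (f.f.app U)).commRingCatIsoToRingEquiv.bijective
  have : Nonempty (f.f ⁻¹ᵁ U) := ⟨⟨_, hη⟩⟩
  have hs : ∀ g, g ∈ Algebra.adjoin ℂ (s₀ : Set X.K) ↔ ∃ a, ψ a = g := fun g => by
    rw [h.gen]
    refine ⟨fun hg => ?_, fun ⟨a, ha⟩ x hx => ha ▸ Sy.germK_mem _ hη hx _⟩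
    obtain ⟨b, hb'⟩ := Sy.exists_sec _ hη g hg
    obtain ⟨a, rfl⟩ := hb.2 b
    exact ⟨a, hb'⟩
  obtain ⟨r, hr, H⟩ := et_of p ψ ((X.X.germToFunctionField_injective _).comp hb.1)
  refine H _ P (fun g k => k P fun _ _ => id) (Dom.ord hP ?_) fun g => ?_
  · refine (Sy.un_germK _ hη hx _).2 ?_
    rw [← Scheme.preimage_basicOpen]
    refine e.mem_open (Z.X.basicOpen r).2 ?_
    rw [← PrimeSpectrum.mem_basicOpen, ← h.aff.fromSpec_preimage_basicOpen] at hr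
    exact (congrArg (· ∈ Z.X.basicOpen r) (h.aff.fromSpec_primeIdealOf ⟨z, zU⟩)).mp hr
  · rw [h.oz hx hP]
    refine ⟨fun ⟨a, a1, b, b1, u, k⟩ => ?_, fun ⟨a, b, b0, b1, k⟩ => ⟨_, (hs _).2 ⟨a, rfl⟩, _,
      (hs _).2 ⟨b, rfl⟩, (dom_iff.1 hP _ ((h.gen _).1 ((hs _).2 ⟨b, rfl⟩) x hx)).2 b0 b1, k⟩⟩
    obtain ⟨a, rfl⟩ := (hs a).1 a1
    obtain ⟨b, rfl⟩ := (hs b).1 b1
    exact ⟨a, b, u.1, Dom.ord hP u, k⟩

end Vale.Agent.P283B.Br
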