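import Vale.Agent.P283B.Spec
import Vale.Agent.P283B.BR.Lit
import Vale.Agent.P270L.S3Atl

/-!
# P283B, block BR: from the b-divisor statement to the literal statement (statements)

`s₀` consists of `1` and generators of the ring of an affine open set `U` of the base,
`H = mx s₀ ≥ 0` is the hyperplane section at infinity.
-/

set_option linter.unusedVariables false

open Set AlgebraicGeometry

noncomputable section

namespace Vale.Agent.P283B.Br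

open P287D

/-! ### the local statement -/

/-- nef on the curves over the points of `U = {H = 0}`; `K` has dimension `n + 1` -/
def CNef : ∀ (n : ℕ) (K : Type) [Field K] [Algebra ℂ K], BD K → BD K → Prop
  | 0, _, _, _, D, H => H = 0 → 0 ≤ I1 D
  | n + 1, K, _, _, D, H => ∀ P : Pl K, H P = 0 → CNef n P.κ (res P D) (res P H)

section defs

variable {K F : Type} [Field K] [Algebra ℂ K] [Field F] [Algebra ℂ F]

/-- the places over `U` -/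
def Fn (s₀ : Finset K) (P : Pl K) : Prop := mx s₀ P = 0

/-- the setting over `U` -/
structure LRel (n : ℕ) (Λ : BD K) (s₀ : Finset K) (Γ : BD K) : Prop where
  one : 1 ∈ s₀
  smp : Smp Λ
  big : Big Λ
  des₀ : Dsc Λ (mx s₀)
  des : Dsc Λ Γ
  rat : CarQ Γ
  bdy : ∀ P, On n Λ P → Fn s₀ P → dsc (n + 1) Γ P ≤ 0
  nef : CNef n K (-Γ) (mx s₀)
  ft : ∃ (Γ₀ : BD K) (c : ℝ), CarQ Γ₀ ∧ Dsc Λ Γ₀ ∧ Smp (-Γ₀) ∧ Big (c • mx s₀ - Γ₀) ∧
    (∀ P, Fn s₀ P → -1 < dsc (n + 1) Γ₀ P) ∧ ∀ P, On n Λ P → Fn s₀ P → dsc (n + 1) Γ₀ P ≤ 0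

/-- `ρ` is the reduction of the valuation ring `V` with values in the field `F` -/
structure Fg (V : ValuationSubring K) (ρ : K → F) : Prop where
  con : ∀ c, algebraMap ℂ K c ∈ V ∧ ρ (algebraMap ℂ K c) = algebraMap ℂ F c
  add : ∀ a ∈ V, ∀ b ∈ V, ρ (a + b) = ρ a + ρ b
  mul : ∀ a ∈ V, ∀ b ∈ V, ρ (a * b) = ρ a * ρ b
  zero : ∀ a ∈ V, (ρ a = 0 ↔ a ∈ V.nonunits)

/-- `g` is a member of `s` with the least valuation -/
def Lst (V : ValuationSubring K) (s : Finset K) (g : K) : Prop :=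
  g ∈ s ∧ g ≠ 0 ∧ ∀ h ∈ s, h / g ∈ V

open Classical in
/-- on the curves over the points of `U` the degree of `t` is at most the degree of `s` -/
def PNef (s t s₀ : Finset K) : Prop := ∀ (F : Type) [Field F] [Algebra ℂ F], FF F 1 →
  ∀ (V : ValuationSubring K) (ρ : K → F) (a b : K), Fg V ρ →
    (∀ y ∈ s₀, y ∈ V ∧ ∃ c, ρ y = algebraMap ℂ F c) → Lst V s a → Lst V t b →
    I1 (mx (t.image fun g => ρ (g / b))) ≤ I1 (mx (s.image fun g => ρ (g / a)))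

end defs

/-- the class depends only on the germ of the base -/
def Lcl (C : Bs) : Prop := ∀ (K : Type) [Field K] [Algebra ℂ K] (s s' : Finset K) (P : Pl K),
  (∀ Q, Ov s P Q ↔ Ov s' P Q) → C K s P → C K s' P

/-- **Q1L**: the local form of `Q1F` -/
def Q1L (C : Bs) (n : ℕ) : Prop := ∀ (ε : ℝ) (q : ℕ), 0 < ε → 0 < q → ∃ N : ℕ, 0 < N ∧
  ForN n fun K _ _ => ∀ (Λ Γ : BD K) (s₀ : Finset K) (R₀ : Pl K), LRel n Λ s₀ Γ → Fn s₀ R₀ →
    (∀ P, Ov s₀ R₀ P → C K s₀ P) → Cf n Λ Γ (Frq q) (Ov s₀ R₀) → ELc n ε Γ (Ov s₀ R₀) →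
    ∃ g, KlC n N Γ (Ov s₀ R₀) g

/-- **BIGU** -/
def BIGU : Prop := ForS fun n K _ _ => ∀ (M A D : BD K) (s₀ : Finset K), 1 ∈ s₀ → Smp M →
  Dsc M (mx s₀) → D ∈ Car K → CNef n K D (mx s₀) → Big A → Eff (M - A - D) → Big M

/-- **LNEG**: the negativity lemma over `U` -/
def LNEG : Prop := ForS fun n K _ _ => ∀ (Λ β D : BD K) (s₀ : Finset K), 1 ∈ s₀ → Smp Λ → Big Λ →
  QF n Λ → Dsc Λ (mx s₀) → Dsc Λ β → D ∈ Car K → CNef n K D (mx s₀) →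
  (∀ P, On n Λ P → Fn s₀ P → D P ≤ β P) → ∀ P, Fn s₀ P → D P ≤ β P

/-- **GLOB**: globalisation -/
def GLOB : Prop := ∀ C, Lcl C → ∀ n, Q1F C n → Q1L C n

/-- **PTC**: from curves to flags -/
def PTC : Prop := ForS fun n K _ _ => ∀ (s t s₀ : Finset K) (c : ℝ) (p : BD K), 1 ∈ s₀ →
  (∃ g ∈ s, g ≠ 0) → (∃ g ∈ t, g ≠ 0) → PNef s t s₀ → 0 ≤ c → p ∈ Prn K →
  CNef n K (c • (mx s - mx t) + p) (mx s₀)

/-- **FORM**: the order of a form -/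
def FORM : Prop := ForK fun n K _ _ => ∀ ω : P289.DForm ℂ K n, ω.Nonzero → ∃ φ : K, φ ≠ 0 ∧
  ∀ P : Pl K, ∃ r : ℤ, Lit.IsFormOrder ω (fun g => g ∈ P.ring) (fun g => P.ord g) r ∧
    (r : ℝ) = cn K n P + P.ord φ

/-! ### schemes -/

open Lit Lit.QV
open P270L.S (loc Un Dom)

section sch

variable {X Z : QV}

/-- `P` is the place of the prime divisor `y` -/
def IsPl (y : X.PrimeDiv) (P : Pl X.K) : Prop :=
  (∀ g, g ∈ P.ring ↔ g ∈ loc y.1) ∧ ∀ g, P.ord g = ord g y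

/-- `P` is the place of the prime divisor `E` of the model -/
def IsMp (M : Model X) (E : M.Y.PrimeDiv) (P : Pl X.K) : Prop :=
  (∀ g, g ∈ P.ring ↔ IsRegularAt (M.pull g) E.1) ∧ ∀ g, P.ord g = ord (M.pull g) E

/-- the sections `s` generate `O(m D)` on `W` -/
structure Gen (s : Finset X.K) (D : X.QDiv) (m : ℕ) (W : X.X.Opens) : Prop where
  sec : ∀ g ∈ s, IsSectionOn D m W g
  gen : ∀ x ∈ W, ∃ g ∈ s, Generates D m g x

/-- the local ring at `x` is a localisation of `A` -/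
def LocOf (A : Subalgebra ℂ X.K) (x : X.X) : Prop :=
  (∀ a ∈ A, a ∈ loc x) ∧ ∀ h ∈ loc x, ∃ b ∈ A, Un x b ∧ b * h ∈ A

/-- the system `s` is an immersion on `W` -/
def Emb (s : Finset X.K) (W : X.X.Opens) : Prop :=
  ∀ x ∈ W, ∃ g ∈ s, g ≠ 0 ∧ LocOf (Algebra.adjoin ℂ ((· / g) '' (s : Set X.K))) x

/-- `s₀` generates the ring of the affine open set `U` of the base -/
structure Base (f : Contraction X Z) (U : Z.X.Opens) (s₀ : Finset X.K) : Prop where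
  aff : IsAffineOpen U
  one : 1 ∈ s₀
  gen : ∀ g, g ∈ Algebra.adjoin ℂ (s₀ : Set X.K) ↔ ∀ x ∈ f.f ⁻¹ᵁ U, g ∈ loc x
  ctr : ∀ W : ValuationSubring X.K, (∀ c, algebraMap ℂ X.K c ∈ W) → (∀ y ∈ s₀, y ∈ W) →
    ∃ x ∈ f.f ⁻¹ᵁ U, Dom W x
  spec : ∀ x ∈ f.f ⁻¹ᵁ U, ∀ x' ∈ f.f ⁻¹ᵁ U,
    (f.f x ⤳ f.f x' ↔ ∀ g ∈ Algebra.adjoin ℂ (s₀ : Set X.K), Un x' g → Un x g)
  cls : ∀ x ∈ f.f ⁻¹ᵁ U, (∀ y ∈ s₀, ∃ c, ¬ Un x (y - algebraMap ℂ X.K c)) →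
    IsClosed ({f.f x} : Set Z.X)

end sch

/-- **SBAS**: varieties -/
structure SBAS : Prop where
  noeth : ∀ X : QV, IsNoetherian X.X
  sep : ∀ X : QV, X.X.IsSeparated
  ff : ∀ (X : QV) (n : ℕ), X.dim = n → FF X.K n
  con : ∀ (X : QV) (x : X.X) (c : ℂ), algebraMap ℂ X.K c ∈ loc x
  pl : ∀ (X : QV) (y : X.PrimeDiv), ∃ P, IsPl y P
  fin : ∀ (X : QV) (g : X.K), {y | ord g y ≠ 0}.Finite
  hart : ∀ (X : QV) (g : X.K) (x : X.X), (∀ y : X.PrimeDiv, y.1 ⤳ x → 0 ≤ ord g y) → g ∈ loc x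
  uniq : ∀ (X : QV) (W : ValuationSubring X.K) (x x' : X.X), Dom W x → Dom W x' → x = x'
  chart : ∀ (X : QV) (W : X.X.Opens), IsAffineOpen W → genericPoint X.X ∈ W →
    ∃ t : Finset X.K, (∀ g, g ∈ Algebra.adjoin ℂ (t : Set X.K) ↔ ∀ x ∈ W, g ∈ loc x) ∧
      ∀ x ∈ W, LocOf (Algebra.adjoin ℂ (t : Set X.K)) x
  exp : ∀ (X : QV) (x : X.X), x ≠ genericPoint X.X → ∃ P : Pl X.K, Dom P.ring x
  cod : ∀ (X : QV) (n : ℕ) (P : Pl X.K) (x : X.X) (y : Fin n → X.K), X.dim = (n + 1 : ℕ) →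
    Dom P.ring x → (∀ i, y i ∈ loc x) → AlgebraicIndependent ℂ (fun i => P.rd (y i)) →
    ∃ h, IsPl ⟨x, h⟩ P

/-- **SBASE**: the base -/
def SBASE : Prop := ∀ (X Z : QV) (f : Contraction X Z) (z : Z.X), ∃ U s₀, z ∈ U ∧ Base f U s₀

/-- **SVA**: ample divisors -/
def SVA : Prop := ∀ (X Z : QV) (f : Contraction X Z) (U : Z.X.Opens) (A : X.QDiv),
  IsAffineOpen U → IsAmpleOver f A → ∃ m s, 0 < m ∧ Gen s A m (f.f ⁻¹ᵁ U) ∧ Emb s (f.f ⁻¹ᵁ U)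

/-- **SGG**: global generation -/
def SGG : Prop := ∀ (X Z : QV) (f : Contraction X Z) (U : Z.X.Opens) (A D : X.QDiv) (m' : ℕ),
  IsAffineOpen U → IsAmpleOver f A → 0 < m' → IsCartierOn D m' ⊤ →
  ∃ (m k : ℕ) (s t : Finset X.K), 0 < m ∧ Gen s (D + k • A) m (f.f ⁻¹ᵁ U) ∧
    Gen t (k • A) m (f.f ⁻¹ᵁ U)

/-- **SNEF**: nef divisors -/
def SNEF : Prop := ∀ (X Z : QV) (f : Contraction X Z) (U : Z.X.Opens) (s₀ s t : Finset X.K)
  (D A : X.QDiv) (m : ℕ), Base f U s₀ → IsNefOver f D → 0 < m → Gen s (D + A) m (f.f ⁻¹ᵁ U) →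
  Gen t A m (f.f ⁻¹ᵁ U) → PNef s t s₀

/-- **SZAR**: the lemma of Zariski, with smooth quasi-projective models -/
def SZAR : Prop := ∀ (X : QV) (P : Pl X.K) (x : X.X), Dom P.ring x →
  ∃ (M : Model X) (E : M.Y.PrimeDiv), M.π E.1 = x ∧ IsMp M E P

/-- **SMOD**: the place of a prime divisor of a model -/
def SMOD : Prop := ∀ (X : QV) (M : Model X) (E : M.Y.PrimeDiv),
  ∃ P : Pl X.K, Dom P.ring (M.π E.1) ∧ IsMp M E P

end Vale.Agent.P283B.Br
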